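import Vale.Agent.P054.T3.H109.ST
import Mathlib.GroupTheory.Perm.List

set_option autoImplicit false
set_option linter.all false

/-!
# P054 / T3: flags (point, isotropic line) of a finite set, and one edge per flag

`FL adj S`: the pairs `(s, direction of s r)`, `s, r ∈ S` adjacent; `W adj S` their number.
`E1 adj S`: the pairs `(s, next point of S on the line)`: one edge for every flag, in both
directions.
-/

namespace Vale.Agent.P054.T3.H190

open Finset
open Vale.Agent.P054.T3.H109.Gen (onL onL_left onL_right onL_iff lineC lineC_eq ln mem_ln ln_eq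
  card_ln)

variable {V : Type*} [AddCommGroup V] [Module ℝ V]

/-- a relation which only depends on the line through the two points -/
structure AdjL (adj : V → V → Prop) : Prop where
  ne : ∀ s r, adj s r → s ≠ r
  symm : ∀ s r, adj s r → adj r s
  line : ∀ s r z, adj s r → onL s r z → z ≠ s → adj s z

/-- direction of the line through `s` and `r` -/
def dr (s r : V) : Submodule ℝ V := Submodule.span ℝ {r - s}

theorem dr_eq_of_onL {s r z : V} (h : onL s r z) (hz : z ≠ s) : dr s z = dr s r := by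
  obtain ⟨a, rfl⟩ := h
  have ha : a ≠ 0 := by
    rintro rfl
    apply hz
    simp
  unfold dr
  rw [add_sub_cancel_left]
  exact Submodule.span_singleton_smul_eq (IsUnit.mk0 a ha) _

theorem onL_of_dr_eq {s r z : V} (h : dr s z = dr s r) : onL s r z := by
  have h1 : z - s ∈ dr s r := by
    rw [← h]
    exact Submodule.mem_span_singleton_self _
  obtain ⟨a, ha⟩ := Submodule.mem_span_singleton.1 h1
  exact ⟨a, by rw [ha]; abel⟩

theorem AdjL.of_onL {adj : V → V → Prop} (H : AdjL adj) {s r x y : V} (h : adj s r)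
    (hx : onL s r x) (hy : onL s r y) (hxy : x ≠ y) : adj x y := by
  by_cases hxs : x = s
  · subst hxs
    exact H.line _ _ _ h hy (Ne.symm hxy)
  · have h1 : adj s x := H.line _ _ _ h hx hxs
    have h2 : adj x s := H.symm _ _ h1
    refine H.line _ _ _ h2 ?_ (Ne.symm hxy)
    exact (onL_iff hx (onL_left s r) hxs).2 hy

open scoped Classical in
/-- the flags of `S` -/
noncomputable def FL (adj : V → V → Prop) (S : Finset V) : Finset (V × Submodule ℝ V) :=
  ((S ×ˢ S).filter fun p => adj p.1 p.2).image fun p => (p.1, dr p.1 p.2)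

theorem mem_FL {adj : V → V → Prop} {S : Finset V} {q : V × Submodule ℝ V} :
    q ∈ FL adj S ↔ ∃ r ∈ S, q.1 ∈ S ∧ adj q.1 r ∧ dr q.1 r = q.2 := by
  classical
  unfold FL
  rw [mem_image]
  constructor
  · rintro ⟨p, hp, rfl⟩
    rw [mem_filter, mem_product] at hp
    exact ⟨p.2, hp.1.2, hp.1.1, hp.2, rfl⟩
  · rintro ⟨r, hr, h1, h2, h3⟩
    exact ⟨(q.1, r), mem_filter.2 ⟨mem_product.2 ⟨h1, hr⟩, h2⟩, Prod.ext rfl h3⟩

/-- number of flags -/
noncomputable def W (adj : V → V → Prop) (S : Finset V) : ℕ := (FL adj S).card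

theorem FL_mono {adj : V → V → Prop} {S T : Finset V} (h : S ⊆ T) : FL adj S ⊆ FL adj T := by
  intro q hq
  obtain ⟨r, hr, h1, h2, h3⟩ := mem_FL.1 hq
  exact mem_FL.2 ⟨r, h hr, h h1, h2, h3⟩

theorem W_mono {adj : V → V → Prop} {S T : Finset V} (h : S ⊆ T) : W adj S ≤ W adj T :=
  card_le_card (FL_mono h)

theorem W_le_sq (adj : V → V → Prop) (S : Finset V) : W adj S ≤ S.card ^ 2 := by
  classical
  unfold W FL
  refine card_image_le.trans ((card_filter_le _ _).trans ?_)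
  rw [card_product, sq]

open scoped Classical in
/-- next point of `S` on the line through `p.1` and `p.2` -/
noncomputable def nxt (S : Finset V) (p : V × V) : Equiv.Perm V := (ln S p).toList.formPerm

theorem nxt_congr {S : Finset V} {p q : V × V} (h : ln S p = ln S q) : nxt S p = nxt S q := by
  unfold nxt
  rw [h]

open scoped Classical in
/-- one edge for every flag -/
noncomputable def E1 (adj : V → V → Prop) (S : Finset V) : Finset (V × V) :=
  (S ×ˢ S).filter fun p => adj p.1 p.2 ∧ p.2 = nxt S p p.1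

theorem mem_E1 {adj : V → V → Prop} {S : Finset V} {p : V × V} :
    p ∈ E1 adj S ↔ (p.1 ∈ S ∧ p.2 ∈ S) ∧ adj p.1 p.2 ∧ p.2 = nxt S p p.1 := by
  classical
  unfold E1
  rw [mem_filter, mem_product]

theorem nxt_mem {S : Finset V} {p : V × V} {x : V} (hx : x ∈ ln S p) : nxt S p x ∈ ln S p := by
  classical
  unfold nxt
  have h := List.formPerm_apply_mem_of_mem (mem_toList.2 hx)
  exact mem_toList.1 h

theorem nxt_ne {S : Finset V} {p : V × V} {x : V} (hx : x ∈ ln S p) (h2 : 2 ≤ (ln S p).card) :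
    nxt S p x ≠ x := by
  classical
  unfold nxt
  rw [List.formPerm_apply_mem_ne_self_iff _ (nodup_toList _) _ (mem_toList.2 hx), length_toList]
  exact h2

theorem ln_pair {S : Finset V} {s r r' : V} (hr : r' ∈ ln S (s, r)) (hs : s ∈ S) (hne : r' ≠ s) :
    ln S (s, r') = ln S (s, r) :=
  ln_eq (p := (s, r)) (q := (s, r')) (mem_ln.2 ⟨hs, onL_left _ _⟩) hr (Ne.symm hne)

theorem two_le_ln {S : Finset V} {s r : V} (hs : s ∈ S) (hr : r ∈ S) (hne : s ≠ r) :
    2 ≤ (ln S (s, r)).card := by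
  classical
  have : ({s, r} : Finset V) ⊆ ln S (s, r) := by
    intro z hz
    rw [mem_insert, mem_singleton] at hz
    rcases hz with rfl | rfl
    · exact mem_ln.2 ⟨hs, onL_left _ _⟩
    · exact mem_ln.2 ⟨hr, onL_right _ _⟩
  have h := card_le_card this
  rwa [card_pair hne] at h

/-- every flag carries exactly one edge of `E1` -/
theorem exists_E1 {adj : V → V → Prop} (H : AdjL adj) {S : Finset V} {s r : V} (hs : s ∈ S)
    (hr : r ∈ S) (h : adj s r) : ∃ r' ∈ S, (s, r') ∈ E1 adj S ∧ dr s r' = dr s r := by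
  have hsr := H.ne _ _ h
  have h2 := two_le_ln hs hr hsr
  have h3 : s ∈ ln S (s, r) := mem_ln.2 ⟨hs, onL_left _ _⟩
  have h4 := nxt_mem (p := (s, r)) h3
  have h5 := nxt_ne h3 h2
  set r' := nxt S (s, r) s with hr'
  have h6 := (mem_ln.1 h4)
  refine ⟨r', h6.1, mem_E1.2 ⟨⟨hs, h6.1⟩, H.line _ _ _ h h6.2 h5, ?_⟩, dr_eq_of_onL h6.2 h5⟩
  have h7 : ln S (s, r') = ln S (s, r) := ln_pair h4 hs h5
  rw [nxt_congr h7]

/-- the edges of `E1` at `s` on one line -/
theorem E1_unique {adj : V → V → Prop} {S : Finset V} {s r r' : V} (h : (s, r) ∈ E1 adj S)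
    (h' : (s, r') ∈ E1 adj S) (hne : s ≠ r) (hl : onL s r r') (hne' : s ≠ r') : r = r' := by
  obtain ⟨⟨a1, a2⟩, a3, a4⟩ := mem_E1.1 h
  obtain ⟨⟨b1, b2⟩, b3, b4⟩ := mem_E1.1 h'
  have h7 : ln S (s, r') = ln S (s, r) := ln_pair (mem_ln.2 ⟨b2, hl⟩) a1 (Ne.symm hne')
  have h8 := nxt_congr h7
  have h9 : r' = nxt S (s, r') s := b4
  have h10 : r = nxt S (s, r) s := a4
  rw [h10, h9, h8]

/-- mirrored: the edges of `E1` into `r` on one line -/
theorem E1_unique' {adj : V → V → Prop} {S : Finset V} {s s' r : V} (h : (s, r) ∈ E1 adj S)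
    (h' : (s', r) ∈ E1 adj S) (hne : s ≠ r) (hl : onL r s s') (hne' : s' ≠ r) : s = s' := by
  obtain ⟨⟨a1, a2⟩, a3, a4⟩ := mem_E1.1 h
  obtain ⟨⟨b1, b2⟩, b3, b4⟩ := mem_E1.1 h'
  have e1 : ln S (s, r) = ln S (r, s) :=
    ln_eq (p := (r, s)) (q := (s, r)) (mem_ln.2 ⟨a1, onL_right _ _⟩)
      (mem_ln.2 ⟨a2, onL_left _ _⟩) hne
  have e2 : ln S (s', r) = ln S (r, s) :=
    ln_eq (p := (r, s)) (q := (s', r)) (mem_ln.2 ⟨b1, hl⟩) (mem_ln.2 ⟨a2, onL_left _ _⟩) hne'
  have e3 : nxt S (s', r) = nxt S (s, r) := nxt_congr (e2.trans e1.symm)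
  have h9 : r = nxt S (s', r) s' := b4
  have h10 : r = nxt S (s, r) s := a4
  rw [e3] at h9
  exact (nxt S (s, r)).injective (h10.symm.trans h9)

/-- `|E1| = W` -/
theorem card_E1 {adj : V → V → Prop} (H : AdjL adj) (S : Finset V) :
    (E1 adj S).card = W adj S := by
  classical
  have h1 : (E1 adj S).image (fun p => (p.1, dr p.1 p.2)) = FL adj S := by
    ext q
    rw [mem_image, mem_FL]
    constructor
    · rintro ⟨p, hp, rfl⟩
      obtain ⟨⟨a1, a2⟩, a3, a4⟩ := mem_E1.1 hp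
      exact ⟨p.2, a2, a1, a3, rfl⟩
    · rintro ⟨r, hr, h2, h3, h4⟩
      obtain ⟨r', hr', h5, h6⟩ := exists_E1 H h2 hr h3
      exact ⟨(q.1, r'), h5, Prod.ext rfl (h6.trans h4)⟩
  unfold W
  rw [← h1, card_image_of_injOn]
  intro p hp q hq hpq
  simp only [Prod.mk.injEq] at hpq
  obtain ⟨e1, e2⟩ := hpq
  obtain ⟨p1, p2⟩ := p
  obtain ⟨q1, q2⟩ := q
  simp only at e1 e2
  subst e1
  have hp' := mem_E1.1 (mem_coe.1 hp)
  have hq' := mem_E1.1 (mem_coe.1 hq)
  have := E1_unique (mem_coe.1 hp) (mem_coe.1 hq) (H.ne _ _ hp'.2.1) (onL_of_dr_eq e2.symm)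
    (H.ne _ _ hq'.2.1)
  rw [this]

open scoped Classical in
/-- flags at one point = edges of `E1` at this point -/
theorem card_E1_at {adj : V → V → Prop} (H : AdjL adj) (S : Finset V) (s : V) :
    ((E1 adj S).filter fun p => p.1 = s).card = ((FL adj S).filter fun q => q.1 = s).card := by
  have h1 : ((E1 adj S).filter fun p => p.1 = s).image (fun p => (p.1, dr p.1 p.2)) =
      (FL adj S).filter fun q => q.1 = s := by
    ext q
    rw [mem_image, mem_filter, mem_FL]
    constructor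
    · rintro ⟨p, hp, rfl⟩
      obtain ⟨hp1, hp2⟩ := mem_filter.1 hp
      obtain ⟨⟨a1, a2⟩, a3, a4⟩ := mem_E1.1 hp1
      exact ⟨⟨p.2, a2, a1, a3, rfl⟩, hp2⟩
    · rintro ⟨⟨r, hr, h2, h3, h4⟩, h0⟩
      obtain ⟨r', hr', h5, h6⟩ := exists_E1 H h2 hr h3
      exact ⟨(q.1, r'), mem_filter.2 ⟨h5, h0⟩, Prod.ext rfl (h6.trans h4)⟩
  rw [← h1, card_image_of_injOn]
  intro p hp q hq hpq
  simp only [Prod.mk.injEq] at hpq
  obtain ⟨e1, e2⟩ := hpq
  obtain ⟨p1, p2⟩ := p
  obtain ⟨q1, q2⟩ := q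
  simp only at e1 e2
  subst e1
  have hp0 := (mem_filter.1 (mem_coe.1 hp)).1
  have hq0 := (mem_filter.1 (mem_coe.1 hq)).1
  have := E1_unique hp0 hq0 (H.ne _ _ (mem_E1.1 hp0).2.1) (onL_of_dr_eq e2.symm)
    (H.ne _ _ (mem_E1.1 hq0).2.1)
  rw [this]

/-! ## the number of flags at one point, out-degree and in-degree of `E1` -/

open scoped Classical in
/-- the directions of the lines through `s` with another point of `S` -/
noncomputable def lns (adj : V → V → Prop) (S : Finset V) (s : V) : Finset (Submodule ℝ V) :=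
  (S.filter (adj s)).image fun r => Submodule.span ℝ {r - s}

theorem mem_lns {adj : V → V → Prop} {S : Finset V} {s : V} {l : Submodule ℝ V} :
    l ∈ lns adj S s ↔ ∃ r ∈ S, adj s r ∧ dr s r = l := by
  classical
  unfold lns
  rw [mem_image]
  constructor
  · rintro ⟨r, hr, rfl⟩
    exact ⟨r, (mem_filter.1 hr).1, (mem_filter.1 hr).2, rfl⟩
  · rintro ⟨r, hr, h1, h2⟩
    exact ⟨r, mem_filter.2 ⟨hr, h1⟩, h2⟩

theorem lns_mono {adj : V → V → Prop} {S T : Finset V} (h : S ⊆ T) (s : V) :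
    lns adj S s ⊆ lns adj T s := by
  intro l hl
  obtain ⟨r, hr, h1, h2⟩ := mem_lns.1 hl
  exact mem_lns.2 ⟨r, h hr, h1, h2⟩

open scoped Classical in
theorem card_FL_at {adj : V → V → Prop} {S : Finset V} {s : V} (hs : s ∈ S) :
    ((FL adj S).filter fun q => q.1 = s).card = (lns adj S s).card := by
  have h1 : ((FL adj S).filter fun q => q.1 = s) = (lns adj S s).image fun l => (s, l) := by
    ext q
    rw [mem_filter, mem_FL, mem_image]
    constructor
    · rintro ⟨⟨r, hr, h2, h3, h4⟩, rfl⟩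
      exact ⟨q.2, mem_lns.2 ⟨r, hr, h3, h4⟩, rfl⟩
    · rintro ⟨l, hl, rfl⟩
      obtain ⟨r, hr, h2, h3⟩ := mem_lns.1 hl
      exact ⟨⟨r, hr, hs, h2, h3⟩, rfl⟩
  rw [h1, card_image_of_injective _ fun a b h => (Prod.mk.inj h).2]

theorem W_eq_sum (adj : V → V → Prop) (S : Finset V) :
    W adj S = ∑ s ∈ S, (lns adj S s).card := by
  classical
  unfold W
  rw [card_eq_sum_card_fiberwise (f := Prod.fst) (t := S)]
  · exact sum_congr rfl fun s hs => card_FL_at hs
  · intro q hq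
    obtain ⟨r, hr, h1, h2⟩ := mem_FL.1 (mem_coe.1 hq)
    exact mem_coe.2 h1

open scoped Classical in
/-- out-degree of `E1` -/
theorem card_E1_fst {adj : V → V → Prop} (H : AdjL adj) {S : Finset V} {s : V} (hs : s ∈ S) :
    ((E1 adj S).filter fun p => p.1 = s).card = (lns adj S s).card := by
  rw [card_E1_at H, card_FL_at hs]

open scoped Classical in
/-- in-degree of `E1` -/
theorem card_E1_snd {adj : V → V → Prop} (H : AdjL adj) {S : Finset V} {s : V} (hs : s ∈ S) :
    ((E1 adj S).filter fun p => p.2 = s).card = (lns adj S s).card := by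
  have h1 : ((E1 adj S).filter fun p => p.2 = s).image (fun p => dr s p.1) = lns adj S s := by
    ext l
    rw [mem_image, mem_lns]
    constructor
    · rintro ⟨p, hp, rfl⟩
      obtain ⟨hp1, rfl⟩ := mem_filter.1 hp
      obtain ⟨⟨a1, a2⟩, a3, a4⟩ := mem_E1.1 hp1
      exact ⟨p.1, a1, H.symm _ _ a3, rfl⟩
    · rintro ⟨r, hr, h2, h3⟩
      have hsr := H.ne _ _ h2
      have h4 : s ∈ ln S (s, r) := mem_ln.2 ⟨hs, onL_left _ _⟩
      set x := (nxt S (s, r)).symm s with hx
      have hx1 : nxt S (s, r) x = s := by rw [hx, Equiv.apply_symm_apply]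
      have h5 : x ∈ ln S (s, r) := by
        have h6 : nxt S (s, r) x ∈ ln S (s, r) := by rw [hx1]; exact h4
        unfold nxt at h6
        exact mem_toList.1 (List.mem_of_formPerm_apply_mem (mem_toList.2 h6))
      have h7 : x ≠ s := by
        intro h
        have := nxt_ne h5 (two_le_ln hs hr hsr)
        rw [hx1] at this
        exact this h.symm
      obtain ⟨h8, h9⟩ := mem_ln.1 h5
      have h10 : ln S (x, s) = ln S (s, r) :=
        ln_eq (p := (s, r)) (q := (x, s)) h5 h4 h7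
      refine ⟨(x, s), mem_filter.2 ⟨mem_E1.2 ⟨⟨h8, hs⟩, ?_, ?_⟩, rfl⟩, ?_⟩
      · exact H.of_onL h2 h9 (onL_left _ _) h7
      · rw [nxt_congr h10]
        exact hx1.symm
      · exact (dr_eq_of_onL h9 h7).trans h3
  rw [← h1, card_image_of_injOn]
  intro p hp q hq hpq
  simp only at hpq
  obtain ⟨hp1, hp2⟩ := mem_filter.1 (mem_coe.1 hp)
  obtain ⟨hq1, hq2⟩ := mem_filter.1 (mem_coe.1 hq)
  obtain ⟨p1, p2⟩ := p
  obtain ⟨q1, q2⟩ := q
  simp only at hp2 hq2 hpq
  subst hp2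
  subst hq2
  have := E1_unique' hp1 hq1 (H.ne _ _ (mem_E1.1 hp1).2.1) (onL_of_dr_eq hpq.symm)
    (H.ne _ _ (mem_E1.1 hq1).2.1)
  rw [this]

/-! ## many flags when all lines are poor -/

/-- a set of adjacent pairs with at most `k` second points on every line through a first point -/
theorem card_le_mul_W {adj : V → V → Prop} (S : Finset V) (A : Finset (V × V)) {k : ℕ}
    (hA : ∀ p ∈ A, (p.1 ∈ S ∧ p.2 ∈ S) ∧ adj p.1 p.2)
    (hk : ∀ s r₀ (R : Finset V), (s, r₀) ∈ A → (∀ r ∈ R, (s, r) ∈ A ∧ onL s r₀ r) → R.card ≤ k) :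
    A.card ≤ k * W adj S := by
  classical
  unfold W
  have h1 : ∀ p ∈ A, (p.1, dr p.1 p.2) ∈ FL adj S := by
    intro p hp
    obtain ⟨⟨a1, a2⟩, a3⟩ := hA p hp
    exact mem_FL.2 ⟨p.2, a2, a1, a3, rfl⟩
  refine card_le_mul_card_image_of_maps_to (f := fun p => (p.1, dr p.1 p.2)) h1 k ?_
  intro q hq
  rcases (A.filter fun p => (p.1, dr p.1 p.2) = q).eq_empty_or_nonempty with h0 | ⟨p₀, hp₀⟩
  · rw [h0]; simp
  obtain ⟨hp1, hp2⟩ := mem_filter.1 hp₀
  have h2 : (A.filter fun p => (p.1, dr p.1 p.2) = q).card =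
      ((A.filter fun p => (p.1, dr p.1 p.2) = q).image Prod.snd).card := by
    refine (card_image_of_injOn ?_).symm
    intro p hp p' hp' h
    have e1 := (mem_filter.1 (mem_coe.1 hp)).2
    have e2 := (mem_filter.1 (mem_coe.1 hp')).2
    exact Prod.ext (Prod.mk.inj (e1.trans e2.symm)).1 h
  rw [h2]
  refine hk p₀.1 p₀.2 _ hp1 ?_
  intro r hr
  obtain ⟨p, hp, rfl⟩ := mem_image.1 hr
  obtain ⟨c1, c2⟩ := mem_filter.1 hp
  have e1 : p.1 = p₀.1 := (Prod.mk.inj (c2.trans hp2.symm)).1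
  have e2 : dr p.1 p.2 = dr p₀.1 p₀.2 := (Prod.mk.inj (c2.trans hp2.symm)).2
  rw [← e1]
  refine ⟨c1, ?_⟩
  rw [← e1] at e2
  exact onL_of_dr_eq e2

end Vale.Agent.P054.T3.H190
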