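import Vale.Agent.P054.T3.H190.Flag
import Vale.Agent.P054.T3.H109.Edges
import Vale.Agent.P054.T3.H533.Deg0K

set_option autoImplicit false
set_option linter.all false

/-!
# P054 / T3: flags of sets of pairs of points

`adjE`: equal nonzero distances.  `E1z B S`: one edge for every flag of `S ⊆ P × P`, in the
coordinates `(ζ, θ)`; `MuK` with `k = 1` on both sides.
-/

namespace Vale.Agent.P054.T3.H190

open Finset
open Vale.Agent.P054.T2 Vale.Agent.P054.T2.SecC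
open Vale.Agent.P054.T2.H686 (E zt zt_injective Ez Sz Gm mu Ez_fst Ez_snd Ez_swap Ez_pairs mem_Ez
  mem_Ez' mu_comm dists edges mem_edges edges_symm mem_edges_snd_ne card_Ez)
open Vale.Agent.P054.T2.H269 (edges₀ mem_edges₀ edges₀_subset edges₀_symm lineCard lineCard_eq
  onLine)
open Vale.Agent.P054.T3.H109.Gen (onL onL_left onL_right)
open Vale.Agent.P054.T3.H533 (MuK)

variable {n : ℕ}

/-- equal nonzero distances -/
def adjE (s r : E n × E n) : Prop := s.1 ≠ r.1 ∧ dist s.1 r.1 = dist s.2 r.2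

theorem adjL_adjE : AdjL (adjE (n := n)) where
  ne s r h h2 := h.1 (by rw [h2])
  symm s r h := ⟨h.1.symm, by rw [dist_comm, h.2, dist_comm]⟩
  line s r z h hz hne := by
    obtain ⟨a, rfl⟩ := hz
    have ha : a ≠ 0 := by
      rintro rfl
      apply hne
      simp
    have e1 : (s + a • (r - s)).1 = s.1 + a • (r.1 - s.1) := rfl
    have e2 : (s + a • (r - s)).2 = s.2 + a • (r.2 - s.2) := rfl
    refine ⟨?_, ?_⟩
    · rw [e1]
      intro h3
      have h4 : a • (r.1 - s.1) = 0 := by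
        have : s.1 + a • (r.1 - s.1) = s.1 + 0 := by rw [add_zero]; exact h3.symm
        exact add_left_cancel this
      rcases smul_eq_zero.1 h4 with h5 | h5
      · exact ha h5
      · exact h.1 (sub_eq_zero.1 h5).symm
    · rw [e1, e2, dist_eq_norm, dist_eq_norm]
      have e3 : s.1 - (s.1 + a • (r.1 - s.1)) = a • (s.1 - r.1) := by module
      have e4 : s.2 - (s.2 + a • (r.2 - s.2)) = a • (s.2 - r.2) := by module
      rw [e3, e4, norm_smul, norm_smul, ← dist_eq_norm, ← dist_eq_norm, h.2]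

/-- one edge for every flag, in the coordinates `(ζ, θ)` -/
noncomputable def E1z (B : E n ≃ₗᵢ[ℝ] E n) (S : Finset (E n × E n)) : Finset (ZZ n × ZZ n) := by
  classical
  exact (E1 adjE S).image fun e => (zt B e.1, zt B e.2)

theorem mem_E1z {B : E n ≃ₗᵢ[ℝ] E n} {S : Finset (E n × E n)} {e : ZZ n × ZZ n} :
    e ∈ E1z B S ↔ ∃ a ∈ E1 adjE S, (zt B a.1, zt B a.2) = e := by
  classical
  simp only [E1z, Finset.mem_image]

theorem mem_E1z' {B : E n ≃ₗᵢ[ℝ] E n} {S : Finset (E n × E n)} {s r : E n × E n} :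
    (zt B s, zt B r) ∈ E1z B S ↔ (s, r) ∈ E1 adjE S := by
  rw [mem_E1z]
  constructor
  · rintro ⟨a, ha, h⟩
    have h3 : a.1 = s := zt_injective B (congrArg Prod.fst h)
    have h4 : a.2 = r := zt_injective B (congrArg Prod.snd h)
    rwa [← h3, ← h4]
  · intro h
    exact ⟨(s, r), h, rfl⟩

theorem card_E1z (B : E n ≃ₗᵢ[ℝ] E n) (S : Finset (E n × E n)) :
    (E1z B S).card = W adjE S := by
  classical
  rw [← card_E1 adjL_adjE S]
  unfold E1z
  refine Finset.card_image_of_injective _ ?_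
  intro a b h
  exact Prod.ext (zt_injective B (congrArg Prod.fst h)) (zt_injective B (congrArg Prod.snd h))

theorem E1_subset_edges {P : Finset (E n)} {S : Finset (E n × E n)} (hS : S ⊆ P ×ˢ P) :
    E1 adjE S ⊆ edges P := by
  intro e he
  obtain ⟨⟨a1, a2⟩, a3, a4⟩ := mem_E1.1 he
  have b1 := Finset.mem_product.1 (hS a1)
  have b2 := Finset.mem_product.1 (hS a2)
  exact mem_edges.2 ⟨⟨⟨b1.1, b1.2⟩, ⟨b2.1, b2.2⟩⟩, a3⟩

theorem E1_subset_edges₀ {P : Finset (E n)} {S : Finset (E n × E n)} (hS : S ⊆ P ×ˢ P) :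
    E1 adjE S ⊆ edges₀ P P.card := by
  classical
  intro e he
  refine mem_edges₀.2 ⟨E1_subset_edges hS he, ?_, ?_⟩
  · rw [lineCard_eq]; exact card_filter_le _ _
  · rw [lineCard_eq]; exact card_filter_le _ _

theorem E1z_subset (B : E n ≃ₗᵢ[ℝ] E n) {P : Finset (E n)} {S : Finset (E n × E n)}
    (hS : S ⊆ P ×ˢ P) : E1z B S ⊆ Ez P B P.card := by
  intro e he
  obtain ⟨a, ha, rfl⟩ := mem_E1z.1 he
  exact mem_Ez.2 ⟨a, E1_subset_edges₀ hS ha, rfl⟩

theorem E1z_fst {B : E n ≃ₗᵢ[ℝ] E n} {S : Finset (E n × E n)} {e : ZZ n × ZZ n}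
    (h : e ∈ E1z B S) : ∃ s ∈ S, zt B s = e.1 := by
  obtain ⟨a, ha, rfl⟩ := mem_E1z.1 h
  exact ⟨a.1, (mem_E1.1 ha).1.1, rfl⟩

theorem E1z_snd {B : E n ≃ₗᵢ[ℝ] E n} {S : Finset (E n × E n)} {e : ZZ n × ZZ n}
    (h : e ∈ E1z B S) : ∃ s ∈ S, zt B s = e.2 := by
  obtain ⟨a, ha, rfl⟩ := mem_E1z.1 h
  exact ⟨a.2, (mem_E1.1 ha).1.2, rfl⟩

/-- every edge of `E1z` comes from two adjacent points of `S` -/
theorem E1z_pairs {B : E n ≃ₗᵢ[ℝ] E n} {S : Finset (E n × E n)} {e : ZZ n × ZZ n}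
    (h : e ∈ E1z B S) : ∃ s ∈ S, ∃ r ∈ S, e = (zt B s, zt B r) ∧ adjE s r ∧
      (s, r) ∈ E1 adjE S := by
  obtain ⟨a, ha, rfl⟩ := mem_E1z.1 h
  obtain ⟨⟨a1, a2⟩, a3, a4⟩ := mem_E1.1 ha
  exact ⟨a.1, a1, a.2, a2, rfl, a3, ha⟩

/-- one edge per leaf point -/
theorem muK_E1z {P : Finset (E n)} {B : E n ≃ₗᵢ[ℝ] E n} (hB : Gm P B) (hn : 2 ≤ n)
    {S : Finset (E n × E n)} (hS : S ⊆ P ×ˢ P) : MuK (E1z B S) 1 := by
  classical
  refine MuK.of_lines hB hn (E1z_subset B hS) ?_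
  intro s r₀ R h0 hR
  rw [mem_E1z'] at h0
  refine Finset.card_le_one.2 ?_
  have hone : ∀ r ∈ R, r = r₀ := by
    intro r hr
    obtain ⟨h1, a, ha⟩ := hR r hr
    rw [mem_E1z'] at h1
    have hl : onL s r₀ r := ⟨a, by rw [← ha]; abel⟩
    exact (E1_unique h0 h1 (adjL_adjE.ne _ _ (mem_E1.1 h0).2.1) hl
      (adjL_adjE.ne _ _ (mem_E1.1 h1).2.1)).symm
  intro r hr r' hr'
  rw [hone r hr, hone r' hr']

/-- mirrored -/
theorem muK_swp_E1z {P : Finset (E n)} {B : E n ≃ₗᵢ[ℝ] E n} (hB : Gm P B) (hn : 2 ≤ n)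
    {S : Finset (E n × E n)} (hS : S ⊆ P ×ˢ P) : MuK (swp (E1z B S)) 1 := by
  classical
  have hsub : swp (E1z B S) ⊆ Ez P B P.card := by
    intro e he
    have := Ez_swap (E1z_subset B hS (mem_swp.1 he))
    rwa [Prod.swap_swap] at this
  refine MuK.of_lines hB hn hsub ?_
  intro s r₀ R h0 hR
  have key : ∀ r, (zt B s, zt B r) ∈ swp (E1z B S) → (r, s) ∈ E1 adjE S := by
    intro r hr
    have h := mem_swp.1 hr
    rw [Prod.swap_prod_mk, mem_E1z'] at h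
    exact h
  have h0' := key _ h0
  refine Finset.card_le_one.2 ?_
  have hone : ∀ r ∈ R, r = r₀ := by
    intro r hr
    obtain ⟨h1, a, ha⟩ := hR r hr
    have h1' := key _ h1
    have hl : onL s r₀ r := ⟨a, by rw [← ha]; abel⟩
    exact (E1_unique' h0' h1' (adjL_adjE.ne _ _ (mem_E1.1 h0').2.1) hl
      (adjL_adjE.ne _ _ (mem_E1.1 h1').2.1)).symm
  intro r hr r' hr'
  rw [hone r hr, hone r' hr']

/-- the points of `R` on one isotropic line through `s`: at most as many as the points of `P` on the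
projection -/
theorem card_line_le {P : Finset (E n)} {s r₀ : E n × E n} (h0 : s.1 ≠ r₀.1)
    (R : Finset (E n × E n)) (hR : ∀ r ∈ R, r.1 ∈ P ∧ onL s r₀ r) :
    R.card ≤ lineCard P s.1 r₀.1 := by
  classical
  rw [lineCard_eq]
  refine Finset.card_le_card_of_injOn Prod.fst ?_ ?_
  · intro r hr
    obtain ⟨h1, a, ha⟩ := hR r hr
    refine mem_coe.2 (mem_filter.2 ⟨h1, a, ?_⟩)
    rw [ha]; rfl
  · intro r hr r' hr' h
    obtain ⟨h1, a, ha⟩ := hR r hr
    obtain ⟨h1', a', ha'⟩ := hR r' hr'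
    have h2 : s.1 + a • (r₀.1 - s.1) = s.1 + a' • (r₀.1 - s.1) := by
      have e1 : r.1 = s.1 + a • (r₀.1 - s.1) := by rw [ha]; rfl
      have e2 : r'.1 = s.1 + a' • (r₀.1 - s.1) := by rw [ha']; rfl
      rw [← e1, ← e2]; exact h
    have h3 : (a - a') • (r₀.1 - s.1) = 0 := by
      have := add_left_cancel h2
      rw [sub_smul, this, sub_self]
    rcases smul_eq_zero.1 h3 with h4 | h4
    · rw [ha, ha', sub_eq_zero.1 h4]
    · exact absurd (sub_eq_zero.1 h4).symm h0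

/-- **many flags**: `|P|⁴ ≤ 2¹⁶ t W(P × P)` -/
theorem W_full_ge {P : Finset (E n)} {t : ℕ} (ht : (dists P).card ≤ t)
    (hP : 256 * (2 * t + 1) ≤ P.card) :
    P.card ^ 4 ≤ 2 ^ 16 * (t * W adjE (P ×ˢ P)) := by
  classical
  obtain ⟨B, -⟩ := H686.exists_Gm P
  have h1 := Vale.Agent.P054.T3.H109.card_Ez_ge_const P B (C := 2 ^ 14) ht le_rfl hP
  rw [card_Ez] at h1
  have h2 : (edges₀ P (2 ^ 14)).card ≤ 2 ^ 14 * W adjE (P ×ˢ P) := by
    refine card_le_mul_W (P ×ˢ P) (edges₀ P (2 ^ 14)) ?_ ?_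
    · intro p hp
      obtain ⟨⟨⟨a1, a2⟩, a3, a4⟩, a5⟩ := mem_edges.1 (edges₀_subset P _ hp)
      exact ⟨⟨Finset.mem_product.2 ⟨a1, a2⟩, Finset.mem_product.2 ⟨a3, a4⟩⟩, a5⟩
    · intro s r₀ R h0 hR
      have h3 := mem_edges₀.1 h0
      have h4 := mem_edges.1 h3.1
      refine (card_line_le h4.2.1 R ?_).trans h3.2.1
      intro r hr
      obtain ⟨h5, h6⟩ := hR r hr
      exact ⟨(mem_edges.1 (edges₀_subset P _ h5)).1.2.1, h6⟩
  calc P.card ^ 4 ≤ 4 * (t * (edges₀ P (2 ^ 14)).card) := h1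
    _ ≤ 4 * (t * (2 ^ 14 * W adjE (P ×ˢ P))) := by gcongr
    _ = 2 ^ 16 * (t * W adjE (P ×ˢ P)) := by ring

end Vale.Agent.P054.T3.H190
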