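import Vale.Agent.P054.T3.H226.CellSum
import Vale.Agent.P054.T3.H190.FlagE
import Vale.Agent.P054.T3.H900.DetEx

set_option autoImplicit false
set_option linter.all false

/-!
# P054 / T3 / H190: the numbers of the extremal product set (`n = 2`)

`X × Y` maximises `W / Φ` among the products of size at least `w` (helper226's `ExtW`, `b = 1/24`), `W` is
the number of flags.  With `N = |X||Y| = z |P|²`, `τ = N²/W` and `T = dn a X + dn a Y` :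
`τ ≤ C z^(3/8) t`, `N ≥ c K² z^(-1/8) τ³`, `N ≥ c K^(4/3) z^(-1/12) τ² T`.
-/

namespace Vale.Agent.P054.T3.H190

open Finset
open Vale.Agent.P054.T2.H686 (E dists)
open Vale.Agent.P054.T3.H226 (Phi Phi_ge_left Phi_ge_right ExtW)
open Vale.Agent.P054.T3.H533 (dn Det)

theorem pow24 {x : ℝ} (hx : 0 ≤ x) (k : ℕ) : x ^ ((k : ℝ) / 24) = (x ^ (1 / 24 : ℝ)) ^ k := by
  rw [← Real.rpow_natCast (x ^ (1 / 24 : ℝ)) k, ← Real.rpow_mul hx]
  congr 1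
  ring

/-- the value of `Φ` at the full product -/
theorem Phi_full_le {P₀ t T₀ : ℝ} (hP : 0 < P₀) (ht : 0 ≤ t) (htP : t ^ 3 ≤ P₀) (hT₀ : 0 ≤ T₀)
    (hT₀' : T₀ ≤ 16 * t) : Phi (1 / 24) P₀ T₀ ≤ 4 * (P₀ ^ (1 / 24 : ℝ)) ^ 39 := by
  set v : ℝ := P₀ ^ (1 / 24 : ℝ) with hv
  have hv0 : 0 < v := Real.rpow_pos_of_pos hP _
  have h24 : v ^ 24 = P₀ := by
    have := pow24 hP.le 24
    norm_num at this
    rw [hv]; exact this.symm
  have h23 : P₀ ^ (1 - 1 / 24 : ℝ) = v ^ 23 := by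
    have := pow24 hP.le 23
    rw [hv, ← this]; norm_num
  have h16 : P₀ ^ (2 / 3 : ℝ) = v ^ 16 := by
    have := pow24 hP.le 16
    rw [hv, ← this]; norm_num
  have ht8 : t ≤ v ^ 8 := by
    have h1 : t ^ 3 ≤ (v ^ 8) ^ 3 := by
      rw [← pow_mul]; exact htP.trans (le_of_eq h24.symm)
    exact le_of_pow_le_pow_left₀ (by norm_num) (by positivity) h1
  have h3 : (P₀ * T₀) ^ (1 / 2 : ℝ) ≤ 4 * v ^ 16 := by
    rw [← Real.sqrt_eq_rpow]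
    apply Real.sqrt_le_iff.2
    refine ⟨by positivity, ?_⟩
    calc P₀ * T₀ ≤ P₀ * (16 * t) := by gcongr
      _ ≤ P₀ * (16 * v ^ 8) := by gcongr
      _ = v ^ 24 * (16 * v ^ 8) := by rw [h24]
      _ = (4 * v ^ 16) ^ 2 := by ring
  unfold Vale.Agent.P054.T3.H226.Phi
  rw [h23, h16]
  calc v ^ 23 * max ((P₀ * T₀) ^ (1 / 2 : ℝ)) (v ^ 16) ≤ v ^ 23 * (4 * v ^ 16) := by
        apply mul_le_mul_of_nonneg_left _ (by positivity)
        apply max_le h3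
        have : 0 ≤ v ^ 16 := by positivity
        linarith
    _ = 4 * v ^ 39 := by ring

/-- the numbers, abstractly -/
theorem num_core {P₀ t W₀ W N T T₀ z K : ℝ} (hP : 0 < P₀) (ht : 1 ≤ t) (hK : 0 ≤ K)
    (htP : t ^ 3 ≤ P₀) (hKP : K ^ 2 * t ^ 3 ≤ P₀) (hz : 0 < z) (hN : N = z * P₀) (hT : 0 ≤ T)
    (hT₀ : 0 ≤ T₀) (hT₀' : T₀ ≤ 16 * t) (hW₀ : P₀ ^ 2 ≤ 2 ^ 16 * (t * W₀)) (hW : 0 ≤ W)
    (hmax : W₀ * Phi (1 / 24) N T ≤ W * Phi (1 / 24) P₀ T₀) :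
    0 < W ∧ N ^ 2 / W ≤ 2 ^ 18 * (z ^ (3 / 8 : ℝ) * t) ∧
      K ^ 2 * z ^ (-(1 / 8) : ℝ) * (N ^ 2 / W) ^ 3 ≤ 2 ^ 54 * N ∧
      K ^ (4 / 3 : ℝ) * z ^ (-(1 / 12) : ℝ) * ((N ^ 2 / W) ^ 2 * T) ≤ 2 ^ 36 * N := by
  have ht0 : 0 < t := by linarith
  have hN0 : 0 < N := by rw [hN]; positivity
  set v : ℝ := P₀ ^ (1 / 24 : ℝ) with hv
  set u : ℝ := z ^ (1 / 24 : ℝ) with hu
  have hv0 : 0 < v := Real.rpow_pos_of_pos hP _
  have hu0 : 0 < u := Real.rpow_pos_of_pos hz _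
  have hv24 : v ^ 24 = P₀ := by
    have := pow24 hP.le 24
    norm_num at this
    rw [hv]; exact this.symm
  have hu24 : u ^ 24 = z := by
    have := pow24 hz.le 24
    norm_num at this
    rw [hu]; exact this.symm
  have hN24 : N = (u * v) ^ 24 := by rw [hN, mul_pow, hv24, hu24]
  have hNr : N ^ (1 / 24 : ℝ) = u * v := by
    rw [hN, Real.mul_rpow hz.le hP.le]
  have hN23 : N ^ (1 - 1 / 24 : ℝ) = (u * v) ^ 23 := by
    have := pow24 hN0.le 23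
    rw [← hNr, ← this]; norm_num
  have hN16 : N ^ (2 / 3 : ℝ) = (u * v) ^ 16 := by
    have := pow24 hN0.le 16
    rw [← hNr, ← this]; norm_num
  have hPhi0 : 0 < Phi (1 / 24) N T := Vale.Agent.P054.T3.H226.Phi_pos hN0
  -- the main inequality
  have hI : v ^ 9 * Phi (1 / 24) N T ≤ 2 ^ 18 * (t * W) := by
    have h1 := Phi_full_le hP ht0.le htP hT₀ hT₀'
    have h2 : v ^ 48 * Phi (1 / 24) N T ≤ v ^ 39 * (2 ^ 18 * (t * W)) := by
      calc v ^ 48 * Phi (1 / 24) N T = P₀ ^ 2 * Phi (1 / 24) N T := by rw [← hv24]; ring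
        _ ≤ (2 ^ 16 * (t * W₀)) * Phi (1 / 24) N T := by gcongr
        _ = 2 ^ 16 * t * (W₀ * Phi (1 / 24) N T) := by ring
        _ ≤ 2 ^ 16 * t * (W * Phi (1 / 24) P₀ T₀) := by gcongr
        _ ≤ 2 ^ 16 * t * (W * (4 * v ^ 39)) := by gcongr
        _ = v ^ 39 * (2 ^ 18 * (t * W)) := by ring
    refine le_of_mul_le_mul_left ?_ (pow_pos hv0 39)
    refine le_trans (le_of_eq ?_) h2
    ring
  have hWpos : 0 < W := by
    have h1 : 0 < v ^ 9 * Phi (1 / 24) N T := by positivity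
    have h2 : 0 < 2 ^ 18 * (t * W) := h1.trans_le hI
    by_contra hc
    have h3 : W = 0 := le_antisymm (not_lt.1 hc) hW
    rw [h3] at h2
    norm_num at h2
  -- consequence 1
  have h1 : u ^ 39 * v ^ 48 ≤ 2 ^ 18 * (t * W) := by
    have h2 := Phi_ge_right (b := 1 / 24) (T := T) hN0
    rw [hN23, hN16] at h2
    calc u ^ 39 * v ^ 48 = v ^ 9 * ((u * v) ^ 23 * (u * v) ^ 16) := by ring
      _ ≤ v ^ 9 * Phi (1 / 24) N T := by gcongr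
      _ ≤ _ := hI
  have hτ : N ^ 2 / W ≤ 2 ^ 18 * (u ^ 9 * t) := by
    rw [div_le_iff₀ hWpos, hN24]
    calc ((u * v) ^ 24) ^ 2 = u ^ 9 * (u ^ 39 * v ^ 48) := by ring
      _ ≤ u ^ 9 * (2 ^ 18 * (t * W)) := by gcongr
      _ = 2 ^ 18 * (u ^ 9 * t) * W := by ring
  -- consequence 2
  have hK43 : K ^ (4 / 3 : ℝ) * t ^ 2 ≤ v ^ 16 := by
    have h2 : (K ^ 2 * t ^ 3) ^ (2 / 3 : ℝ) ≤ P₀ ^ (2 / 3 : ℝ) :=
      Real.rpow_le_rpow (by positivity) hKP (by norm_num)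
    have h3 : (K ^ 2 * t ^ 3) ^ (2 / 3 : ℝ) = K ^ (4 / 3 : ℝ) * t ^ 2 := by
      rw [Real.mul_rpow (by positivity) (by positivity), ← Real.rpow_natCast K 2,
        ← Real.rpow_mul hK, ← Real.rpow_natCast t 3, ← Real.rpow_mul ht0.le,
        ← Real.rpow_natCast t 2]
      norm_num
    have h4 : P₀ ^ (2 / 3 : ℝ) = v ^ 16 := by
      have := pow24 hP.le 16
      rw [hv, ← this]; norm_num
    rw [h3, h4] at h2
    exact h2
  have h2 : u ^ 70 * v ^ 88 * T ≤ 2 ^ 36 * (t ^ 2 * W ^ 2) := by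
    have h3 := Phi_ge_left (b := 1 / 24) (T := T) hN0
    rw [hN23] at h3
    have hs : ((N * T) ^ (1 / 2 : ℝ)) ^ 2 = N * T := by
      rw [← Real.sqrt_eq_rpow]
      exact Real.sq_sqrt (by positivity)
    have hs0 : 0 ≤ (N * T) ^ (1 / 2 : ℝ) := Real.rpow_nonneg (by positivity) _
    have h4 : v ^ 9 * ((u * v) ^ 23 * (N * T) ^ (1 / 2 : ℝ)) ≤ 2 ^ 18 * (t * W) :=
      (mul_le_mul_of_nonneg_left h3 (by positivity)).trans hI
    have h5 := pow_le_pow_left₀ (by positivity) h4 2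
    calc u ^ 70 * v ^ 88 * T = (v ^ 9 * (u * v) ^ 23) ^ 2 * ((u * v) ^ 24 * T) := by ring
      _ = (v ^ 9 * (u * v) ^ 23) ^ 2 * (((N * T) ^ (1 / 2 : ℝ)) ^ 2) := by rw [hs, hN24]
      _ = (v ^ 9 * ((u * v) ^ 23 * (N * T) ^ (1 / 2 : ℝ))) ^ 2 := by ring
      _ ≤ (2 ^ 18 * (t * W)) ^ 2 := h5
      _ = 2 ^ 36 * (t ^ 2 * W ^ 2) := by ring
  have hz38 : z ^ (3 / 8 : ℝ) = u ^ 9 := by
    have := pow24 hz.le 9
    rw [hu, ← this]; norm_num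
  have hz8 : z ^ (-(1 / 8) : ℝ) = (u ^ 3)⁻¹ := by
    have := pow24 hz.le 3
    rw [Real.rpow_neg hz.le, hu, ← this]; norm_num
  have hz12 : z ^ (-(1 / 12) : ℝ) = (u ^ 2)⁻¹ := by
    have := pow24 hz.le 2
    rw [Real.rpow_neg hz.le, hu, ← this]; norm_num
  refine ⟨hWpos, ?_, ?_, ?_⟩
  · rw [hz38]; exact hτ
  · have hτ0 : 0 ≤ N ^ 2 / W := by positivity
    have h3 := pow_le_pow_left₀ hτ0 hτ 3
    rw [hz8]
    calc K ^ 2 * (u ^ 3)⁻¹ * (N ^ 2 / W) ^ 3 ≤ K ^ 2 * (u ^ 3)⁻¹ * (2 ^ 18 * (u ^ 9 * t)) ^ 3 := by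
          gcongr
      _ = 2 ^ 54 * (u ^ 24 * (K ^ 2 * t ^ 3)) := by
          field_simp
      _ ≤ 2 ^ 54 * (u ^ 24 * P₀) := by gcongr
      _ = 2 ^ 54 * N := by rw [hu24, hN]
  · rw [hz12]
    have hK0 : 0 ≤ K ^ (4 / 3 : ℝ) := Real.rpow_nonneg hK _
    have h3 : K ^ (4 / 3 : ℝ) * (u ^ 72 * v ^ 72 * T) ≤ 2 ^ 36 * (u ^ 2 * W ^ 2) := by
      refine le_of_mul_le_mul_left ?_ (pow_pos ht0 2)
      calc t ^ 2 * (K ^ (4 / 3 : ℝ) * (u ^ 72 * v ^ 72 * T))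
          = (K ^ (4 / 3 : ℝ) * t ^ 2) * (u ^ 72 * v ^ 72 * T) := by ring
        _ ≤ v ^ 16 * (u ^ 72 * v ^ 72 * T) := by gcongr
        _ = u ^ 2 * (u ^ 70 * v ^ 88 * T) := by ring
        _ ≤ u ^ 2 * (2 ^ 36 * (t ^ 2 * W ^ 2)) := by gcongr
        _ = t ^ 2 * (2 ^ 36 * (u ^ 2 * W ^ 2)) := by ring
    have hu2 : 0 < u ^ 2 * W ^ 2 := by positivity
    have e1 : K ^ (4 / 3 : ℝ) * (u ^ 2)⁻¹ * ((N ^ 2 / W) ^ 2 * T) =
        (K ^ (4 / 3 : ℝ) * (u ^ 72 * v ^ 72 * T)) * N / (u ^ 2 * W ^ 2) := by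
      have e2 : u ^ 72 * v ^ 72 = N ^ 3 := by rw [hN24]; ring
      rw [e2]
      field_simp
    rw [e1, div_le_iff₀ hu2]
    calc K ^ (4 / 3 : ℝ) * (u ^ 72 * v ^ 72 * T) * N ≤ 2 ^ 36 * (u ^ 2 * W ^ 2) * N := by gcongr
      _ = 2 ^ 36 * N * (u ^ 2 * W ^ 2) := by ring

/-- the number of flags on a product -/
noncomputable def WP (X Y : Finset (E 2)) : ℝ := (W adjE (X ×ˢ Y) : ℝ)

/-- the numbers of distances from the centres -/
noncomputable def TP {m : ℕ} (a : Fin m → E 2) (X : Finset (E 2)) : ℝ := (dn a X : ℝ)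

theorem WP_mono {X Y X' Y' : Finset (E 2)} (hX : X ⊆ X') (hY : Y ⊆ Y') : WP X Y ≤ WP X' Y' := by
  unfold WP
  exact_mod_cast W_mono (Finset.product_subset_product hX hY)

theorem TP_mono {m : ℕ} (a : Fin m → E 2) {X X' : Finset (E 2)} (hX : X ⊆ X') :
    TP a X ≤ TP a X' := by
  unfold TP
  exact_mod_cast H533.dn_mono a hX

theorem TP_ge_one {m : ℕ} (hm : 0 < m) (a : Fin m → E 2) {X : Finset (E 2)} (hX : X.Nonempty) :
    1 ≤ TP a X := by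
  classical
  unfold TP H533.dn
  have h1 : 1 ≤ (X.image fun x => dist x (a ⟨0, hm⟩)).card :=
    Finset.card_pos.2 (hX.image _)
  have h2 : (X.image fun x => dist x (a ⟨0, hm⟩)).card ≤
      ∑ i, (X.image fun x => dist x (a i)).card :=
    Finset.single_le_sum (f := fun i => (X.image fun x => dist x (a i)).card)
      (fun i _ => Nat.zero_le _) (Finset.mem_univ _)
  exact_mod_cast h1.trans h2

/-- **the numbers of the extremal product set** -/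
theorem num_P {P : Finset (E 2)} {t : ℕ} {K : ℝ} (ht : (dists P).card ≤ t) (ht1 : 1 ≤ t)
    (hK : 1 ≤ K) (hKP : K * (t : ℝ) ^ (3 / 2 : ℝ) ≤ P.card) (hP : 256 * (2 * t + 1) ≤ P.card)
    (a : Fin 4 → E 2) (ha : ∀ i, a i ∈ P) {X Y : Finset (E 2)} {w : ℝ} (hw : 0 < w)
    (hwP : w ≤ (P.card : ℝ) * P.card) (h : ExtW WP (TP a) P X Y (1 / 24) w)
    {N z τ T : ℝ} (hN : N = (X.card : ℝ) * Y.card) (hz : z = N / (P.card : ℝ) ^ 2)
    (hτ : τ = N ^ 2 / WP X Y) (hT : T = TP a X + TP a Y) :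
    X.Nonempty ∧ Y.Nonempty ∧ 0 < N ∧ 0 < z ∧ z ≤ 1 ∧ w / (P.card : ℝ) ^ 2 ≤ z ∧
      0 < WP X Y ∧ 0 < τ ∧ 2 ≤ T ∧ T ≤ 8 * (t + 1) ∧
      τ ≤ 2 ^ 18 * (z ^ (3 / 8 : ℝ) * t) ∧
      K ^ 2 * z ^ (-(1 / 8) : ℝ) * τ ^ 3 ≤ 2 ^ 54 * N ∧
      K ^ (4 / 3 : ℝ) * z ^ (-(1 / 12) : ℝ) * (τ ^ 2 * T) ≤ 2 ^ 36 * N := by
  have hp0 : 0 < (P.card : ℝ) := by
    have : 0 < P.card := by omega
    exact_mod_cast this
  have ht1' : (1 : ℝ) ≤ t := by exact_mod_cast ht1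
  have hN0 : 0 < N := by rw [hN]; exact lt_of_lt_of_le hw h.big
  have hX : X.Nonempty := by
    rw [Finset.nonempty_iff_ne_empty]
    rintro rfl
    rw [hN] at hN0
    simp at hN0
  have hY : Y.Nonempty := by
    rw [Finset.nonempty_iff_ne_empty]
    rintro rfl
    rw [hN] at hN0
    simp at hN0
  have hXP : (X.card : ℝ) ≤ P.card := by exact_mod_cast Finset.card_le_card h.hX
  have hYP : (Y.card : ℝ) ≤ P.card := by exact_mod_cast Finset.card_le_card h.hY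
  have hz0 : 0 < z := by rw [hz]; positivity
  have hz1 : z ≤ 1 := by
    rw [hz, div_le_one (by positivity), hN, sq]
    gcongr
  have hzw : w / (P.card : ℝ) ^ 2 ≤ z := by
    rw [hz, hN]
    gcongr
    exact h.big
  have hT2 : 2 ≤ T := by
    have h1 := TP_ge_one (by norm_num) a hX
    have h2 := TP_ge_one (by norm_num) a hY
    rw [hT]; linarith
  have hdP : TP a P ≤ 4 * (t + 1) := by
    unfold TP
    have := H900.dn_le a ha ht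
    exact_mod_cast this
  have hT8 : T ≤ 8 * (t + 1) := by
    have h1 := TP_mono a h.hX
    have h2 := TP_mono a h.hY
    rw [hT]; linarith
  -- the numbers
  have hP0 : 0 < (P.card : ℝ) * P.card := by positivity
  have hsq : ((t : ℝ) ^ (3 / 2 : ℝ)) ^ 2 = (t : ℝ) ^ 3 := by
    rw [← Real.rpow_natCast ((t : ℝ) ^ (3 / 2 : ℝ)) 2, ← Real.rpow_mul (by positivity),
      ← Real.rpow_natCast (t : ℝ) 3]
    norm_num
  have hKP2 : K ^ 2 * (t : ℝ) ^ 3 ≤ (P.card : ℝ) * P.card := by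
    have h1 := pow_le_pow_left₀ (by positivity) hKP 2
    rw [mul_pow, hsq, sq (P.card : ℝ)] at h1
    exact h1
  have htP2 : (t : ℝ) ^ 3 ≤ (P.card : ℝ) * P.card := by
    refine le_trans ?_ hKP2
    have h1 : (1 : ℝ) ≤ K ^ 2 := one_le_pow₀ hK
    have h2 : (0 : ℝ) ≤ (t : ℝ) ^ 3 := by positivity
    nlinarith
  have hfull := W_full_ge ht hP
  have hW₀ : ((P.card : ℝ) * P.card) ^ 2 ≤ 2 ^ 16 * ((t : ℝ) * WP P P) := by
    unfold WP
    have : ((P.card ^ 4 : ℕ) : ℝ) ≤ ((2 ^ 16 * (t * W adjE (P ×ˢ P)) : ℕ) : ℝ) := by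
      exact_mod_cast hfull
    push_cast at this
    calc ((P.card : ℝ) * P.card) ^ 2 = (P.card : ℝ) ^ 4 := by ring
      _ ≤ 2 ^ 16 * ((t : ℝ) * (W adjE (P ×ˢ P) : ℝ)) := by norm_num; exact this
  have hmax := h.max P (Finset.Subset.refl _) P (Finset.Subset.refl _) hwP
  rw [← hN, ← hT] at hmax
  have hWn : 0 ≤ WP X Y := by unfold WP; positivity
  have hdP' : TP a P + TP a P ≤ 16 * (t : ℝ) := by linarith
  have hdP0 : 0 ≤ TP a P + TP a P := by unfold TP; positivity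
  have hNz : N = z * ((P.card : ℝ) * P.card) := by
    rw [hz]; field_simp
  obtain ⟨c1, c2, c3, c4⟩ := num_core hP0 ht1' (by linarith) htP2 hKP2 hz0 hNz (by linarith)
    hdP0 hdP' hW₀ hWn hmax
  refine ⟨hX, hY, hN0, hz0, hz1, hzw, c1, ?_, hT2, hT8, ?_, ?_, ?_⟩
  · rw [hτ]; positivity
  · rw [hτ]; exact c2
  · rw [hτ]; exact c3
  · rw [hτ]; exact c4

end Vale.Agent.P054.T3.H190
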