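import Vale.Agent.P054.T2.H269.S1

set_option autoImplicit false
set_option linter.all false

/-!
# P054 / T3: the start of the lossless proof: a dyadic class of distances of almost equal
multiplicity, after removal of the pairs on rich lines
-/

namespace Vale.Agent.P054.T3.H190

open Finset Vale.Agent.P054.T2.H686 Vale.Agent.P054.T2.H269

variable {n : ℕ}

open scoped Classical in
/-- the number of ordered pairs of points of `P` at distance `δ` -/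
noncomputable def mult (P : Finset (E n)) (δ : ℝ) : ℕ :=
  (P.offDiag.filter fun p => dist p.1 p.2 = δ).card

open scoped Classical in
/-- the edges of `edges₀ P C` whose common distance lies in `D` -/
noncomputable def edgesD (P : Finset (E n)) (C : ℕ) (D : Finset ℝ) :
    Finset ((E n × E n) × (E n × E n)) :=
  (edges₀ P C).filter fun e => dist e.1.1 e.2.1 ∈ D

theorem mem_edgesD {P : Finset (E n)} {C : ℕ} {D : Finset ℝ}
    {e : (E n × E n) × (E n × E n)} :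
    e ∈ edgesD P C D ↔ e ∈ edges₀ P C ∧ dist e.1.1 e.2.1 ∈ D := by
  classical
  rw [edgesD, mem_filter]

theorem edgesD_subset (P : Finset (E n)) (C : ℕ) (D : Finset ℝ) : edgesD P C D ⊆ edges₀ P C := by
  classical
  exact filter_subset _ _

theorem edgesD_symm {P : Finset (E n)} {C : ℕ} {D : Finset ℝ} {e : (E n × E n) × (E n × E n)}
    (h : e ∈ edgesD P C D) : (e.2, e.1) ∈ edgesD P C D := by
  rw [mem_edgesD] at h ⊢
  refine ⟨edges₀_symm h.1, ?_⟩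
  have : dist e.2.1 e.1.1 = dist e.1.1 e.2.1 := dist_comm _ _
  rw [this]; exact h.2

/-- the pairs of points on lines with more than `C` points are few (sharp Szemerédi–Trotter) -/
def BadLe (P : Finset (E n)) (C₀ : ℝ) : Prop :=
  ∀ C : ℕ, 1 ≤ C → ((P.offDiag \ good P C).card : ℝ) ≤
    C₀ * ((P.card : ℝ) ^ 2 / C + P.card * (dists P).card)

/-- Cauchy–Schwarz on the good pairs with distance in `D` -/
theorem card_edgesD_ge (P : Finset (E n)) (C : ℕ) (D : Finset ℝ) :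
    ((good P C).filter fun p => dist p.1 p.2 ∈ D).card ^ 2 ≤ D.card * (edgesD P C D).card := by
  classical
  set f : E n × E n → ℝ := fun p => dist p.1 p.2 with hf
  set G := (good P C).filter fun p => dist p.1 p.2 ∈ D with hG
  have hGs : ∀ p ∈ G, p.1 ∈ P ∧ p.2 ∈ P ∧ p.1 ≠ p.2 ∧ lineCard P p.1 p.2 ≤ C ∧
      dist p.1 p.2 ∈ D := by
    intro p hp
    rw [hG, mem_filter, good, mem_filter, mem_offDiag] at hp
    exact ⟨hp.1.1.1, hp.1.1.2.1, hp.1.1.2.2, hp.1.2, hp.2⟩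
  have h2 : G.card = ∑ r ∈ D, (G.filter fun p => f p = r).card := by
    refine Finset.card_eq_sum_card_fiberwise ?_
    intro p hp
    exact (hGs p hp).2.2.2.2
  have h3 : (∑ r ∈ D, (G.filter fun p => f p = r).card) ^ 2 ≤
      D.card * ∑ r ∈ D, (G.filter fun p => f p = r).card ^ 2 :=
    sq_sum_le_card_mul_sum_sq
  rw [h2]
  refine h3.trans (Nat.mul_le_mul_left _ ?_)
  have h4 : ∀ r ∈ D, (G.filter fun p => f p = r).card ^ 2 =
      ((G.filter fun p => f p = r) ×ˢ (G.filter fun p => f p = r)).card := by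
    intro r _
    rw [Finset.card_product, sq]
  rw [Finset.sum_congr rfl h4, ← Finset.card_biUnion]
  · refine Finset.card_le_card_of_injOn (fun q => ((q.1.1, q.2.1), (q.1.2, q.2.2))) ?_ ?_
    · intro q hq
      simp only [Finset.coe_biUnion, Finset.mem_coe, Set.mem_iUnion, Finset.mem_product,
        Finset.mem_filter, exists_prop] at hq
      obtain ⟨r, hr, ⟨h5, h8⟩, ⟨h9, h12⟩⟩ := hq
      have h5' := hGs _ h5
      have h9' := hGs _ h9
      simp only [Finset.mem_coe]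
      rw [mem_edgesD, mem_edges₀, mem_edges]
      exact ⟨⟨⟨⟨⟨h5'.1, h9'.1⟩, ⟨h5'.2.1, h9'.2.1⟩⟩, h5'.2.2.1, h8.trans h12.symm⟩,
        h5'.2.2.2.1, h9'.2.2.2.1⟩, h5'.2.2.2.2⟩
    · intro q _ q' _ h
      simp only [Prod.mk.injEq] at h
      obtain ⟨⟨h1, h2⟩, ⟨h3, h4⟩⟩ := h
      exact Prod.ext (Prod.ext h1 h3) (Prod.ext h2 h4)
  · intro r _ r' _ hne
    rw [Function.onFun, Finset.disjoint_left]
    intro q hq hq'
    simp only [Finset.mem_product, Finset.mem_filter] at hq hq'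
    exact hne (hq.1.2.symm.trans hq'.1.2)

/-- selection of a level with power weights -/
theorem exists_level {κ S : ℝ} (hκ : 0 < κ) (hS : 0 < S) (J : ℕ) (x : ℕ → ℝ)
    (h : S ≤ ∑ i ∈ range J, x i) :
    ∃ i < J, (1 - (2 : ℝ) ^ (-κ)) * S * ((2 : ℝ) ^ (-κ)) ^ i ≤ x i := by
  set q : ℝ := (2 : ℝ) ^ (-κ) with hq
  have hq0 : 0 < q := by positivity
  have hq1 : q < 1 := Real.rpow_lt_one_of_one_lt_of_neg (by norm_num) (by linarith)
  by_contra hcon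
  push Not at hcon
  have hJ : 0 < J := by
    rcases Nat.eq_zero_or_pos J with h0 | h0
    · rw [h0] at h; simp at h; linarith
    · exact h0
  have h1 : ∑ i ∈ range J, x i < ∑ i ∈ range J, (1 - q) * S * q ^ i :=
    Finset.sum_lt_sum_of_nonempty ⟨0, mem_range.2 hJ⟩ fun i hi => hcon i (mem_range.1 hi)
  have h2 : ∑ i ∈ range J, (1 - q) * S * q ^ i = S * (1 - q ^ J) := by
    rw [← Finset.mul_sum, geom_sum_eq hq1.ne]
    have : q - 1 ≠ 0 := by linarith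
    field_simp
    ring
  have h3 : S * (1 - q ^ J) ≤ S := by
    have : 0 ≤ q ^ J := by positivity
    nlinarith
  linarith

open scoped Classical in
/-- the sum of the multiplicities over a set of distances is the number of pairs -/
theorem sum_mult (P : Finset (E n)) (D : Finset ℝ) :
    ∑ δ ∈ D, mult P δ = (P.offDiag.filter fun p => dist p.1 p.2 ∈ D).card := by
  have h := Finset.card_eq_sum_card_fiberwise (f := fun p : E n × E n => dist p.1 p.2)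
    (s := P.offDiag.filter fun p => dist p.1 p.2 ∈ D) (t := D)
    (fun p hp => (mem_filter.1 hp).2)
  rw [h]
  refine Finset.sum_congr rfl fun δ hδ => ?_
  unfold mult
  congr 1
  ext p
  simp only [mem_filter]
  constructor
  · rintro ⟨h1, h2⟩
    exact ⟨⟨h1, by rw [h2]; exact hδ⟩, h2⟩
  · rintro ⟨⟨h1, -⟩, h2⟩
    exact ⟨h1, h2⟩

theorem sum_mult_dists (P : Finset (E n)) : ∑ δ ∈ dists P, mult P δ = P.offDiag.card := by
  classical
  rw [sum_mult]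
  congr 1
  rw [Finset.filter_eq_self]
  intro p hp
  rw [mem_offDiag] at hp
  have : dist p.1 p.2 ∈ (dists P : Set ℝ) := by
    rw [coe_dists]
    exact ⟨p.1, hp.1, p.2, hp.2.1, hp.2.2, rfl⟩
  exact this

/-- the distances of multiplicity in `[2^i u, 2^(i+1) u)` -/
noncomputable def lev (P : Finset (E n)) (u : ℝ) (i : ℕ) : Finset ℝ := by
  classical
  exact (dists P).filter fun δ => (2 : ℝ) ^ i * u ≤ mult P δ ∧ (mult P δ : ℝ) < 2 ^ (i + 1) * u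

theorem mem_lev {P : Finset (E n)} {u : ℝ} {i : ℕ} {δ : ℝ} : δ ∈ lev P u i ↔ δ ∈ dists P ∧
    (2 : ℝ) ^ i * u ≤ mult P δ ∧ (mult P δ : ℝ) < 2 ^ (i + 1) * u := by
  classical
  rw [lev, mem_filter]

/-- the levels contain a quarter of all pairs -/
theorem sum_lev (P : Finset (E n)) {t : ℕ} (ht : 1 ≤ t) (hPt : (dists P).card ≤ t)
    (hP : 2 ≤ P.card) :
    (P.card : ℝ) ^ 2 / 4 ≤ ∑ i ∈ range (4 * t), ∑ δ ∈ lev P ((P.card : ℝ) ^ 2 / (4 * t)) i,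
      (mult P δ : ℝ) := by
  classical
  set p : ℝ := (P.card : ℝ) with hp
  set u : ℝ := p ^ 2 / (4 * t) with hu
  have hp2 : (2 : ℝ) ≤ p := by rw [hp]; exact_mod_cast hP
  have ht0 : (1 : ℝ) ≤ t := by exact_mod_cast ht
  have hu0 : 0 < u := by positivity
  -- all distances
  have h1 : p ^ 2 / 2 ≤ ∑ δ ∈ dists P, (mult P δ : ℝ) := by
    have h2 : (∑ δ ∈ dists P, (mult P δ : ℝ)) = (P.offDiag.card : ℝ) := by
      rw [← sum_mult_dists P]; push_cast; rfl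
    rw [h2, offDiag_card]
    have h3 : P.card ≤ P.card * P.card := Nat.le_mul_self _
    rw [Nat.cast_sub h3]
    push_cast
    rw [← hp]
    nlinarith
  -- the low ones
  set H := (dists P).filter fun δ => u ≤ (mult P δ : ℝ) with hH
  have h2 : ∑ δ ∈ (dists P).filter (fun δ => ¬ u ≤ (mult P δ : ℝ)), (mult P δ : ℝ) ≤ p ^ 2 / 4 := by
    have h3 : ∑ δ ∈ (dists P).filter (fun δ => ¬ u ≤ (mult P δ : ℝ)), (mult P δ : ℝ) ≤
        ∑ _δ ∈ (dists P).filter (fun δ => ¬ u ≤ (mult P δ : ℝ)), u := by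
      refine Finset.sum_le_sum fun δ hδ => ?_
      exact (not_le.1 (mem_filter.1 hδ).2).le
    rw [Finset.sum_const, nsmul_eq_mul] at h3
    have h4 : (((dists P).filter (fun δ => ¬ u ≤ (mult P δ : ℝ))).card : ℝ) ≤ t := by
      exact_mod_cast (card_filter_le _ _).trans hPt
    have h5 : (((dists P).filter (fun δ => ¬ u ≤ (mult P δ : ℝ))).card : ℝ) * u ≤ t * u :=
      mul_le_mul_of_nonneg_right h4 hu0.le
    have h6 : (t : ℝ) * u = p ^ 2 / 4 := by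
      rw [hu]; field_simp
    linarith
  have h3 : ∑ δ ∈ dists P, (mult P δ : ℝ) = ∑ δ ∈ H, (mult P δ : ℝ) +
      ∑ δ ∈ (dists P).filter (fun δ => ¬ u ≤ (mult P δ : ℝ)), (mult P δ : ℝ) :=
    (Finset.sum_filter_add_sum_filter_not _ _ _).symm
  have h4 : p ^ 2 / 4 ≤ ∑ δ ∈ H, (mult P δ : ℝ) := by linarith
  -- the level of a distance
  have hlev : ∀ δ ∈ H, ∃ i < 4 * t, δ ∈ lev P u i := by
    intro δ hδ
    rw [hH, mem_filter] at hδ
    obtain ⟨i, hi1, hi2⟩ := exists_nat_pow_near (x := (mult P δ : ℝ) / u) (y := 2)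
      ((one_le_div hu0).2 hδ.2) (by norm_num)
    rw [le_div_iff₀ hu0] at hi1
    rw [div_lt_iff₀ hu0] at hi2
    refine ⟨i, ?_, mem_lev.2 ⟨hδ.1, hi1, hi2⟩⟩
    have h5 : (mult P δ : ℝ) ≤ p ^ 2 := by
      have h6 : mult P δ ≤ P.card * P.card := by
        unfold mult
        refine (card_filter_le _ _).trans ?_
        rw [offDiag_card]
        exact Nat.sub_le _ _
      have h7 : (mult P δ : ℝ) ≤ ((P.card * P.card : ℕ) : ℝ) := by exact_mod_cast h6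
      rw [hp, sq]
      push_cast at h7
      exact h7
    have h6 : (2 : ℝ) ^ i ≤ 4 * t := by
      have h7 : (2 : ℝ) ^ i * u ≤ (4 * t) * u := by
        refine (hi1.trans h5).trans (le_of_eq ?_)
        rw [hu]; field_simp
      exact le_of_mul_le_mul_right h7 hu0
    have h7 : 2 ^ i ≤ 4 * t := by exact_mod_cast h6
    exact lt_of_lt_of_le Nat.lt_two_pow_self h7
  choose! l hl1 hl2 using hlev
  have h5 : ∑ δ ∈ H, (mult P δ : ℝ) =
      ∑ i ∈ range (4 * t), ∑ δ ∈ H.filter (fun δ => l δ = i), (mult P δ : ℝ) :=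
    (Finset.sum_fiberwise_of_maps_to (fun δ hδ => mem_range.2 (hl1 δ hδ)) _).symm
  refine h4.trans (h5.le.trans ?_)
  refine Finset.sum_le_sum fun i _ => ?_
  refine Finset.sum_le_sum_of_subset_of_nonneg ?_ fun _ _ _ => Nat.cast_nonneg _
  intro δ hδ
  obtain ⟨h6, h7⟩ := mem_filter.1 hδ
  rw [← h7]
  exact hl2 δ h6

/-- arithmetic: the rich lines are negligible -/
theorem arith_bad {c₁ C₀ κ Y t p C x m : ℝ} (hc0 : 0 < c₁) (hC₀ : 1 ≤ C₀) (hκ : 0 < κ)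
    (hY1 : 1 ≤ Y) (ht0 : 1 ≤ t) (hp : 0 < p) (hY4 : Y ≤ 4 * t) (hm : m ≤ t)
    (hCge : 16 * C₀ * Y ^ κ / c₁ ≤ C) (hx : c₁ * (p ^ 2 / 4) * Y ^ (-κ) ≤ x)
    (hK : 64 * C₀ * 4 ^ κ / c₁ * t ^ (1 + κ) ≤ p) : C₀ * (p ^ 2 / C + p * m) ≤ x / 2 := by
  have hY0 : 0 < Y := by linarith
  have hYκ : 1 ≤ Y ^ κ := Real.one_le_rpow hY1 hκ.le
  have hYn : 0 < Y ^ (-κ) := by positivity
  have hYneg : Y ^ (-κ) * Y ^ κ = 1 := by
    rw [← Real.rpow_add hY0]; simp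
  have hC0' : 0 < C := lt_of_lt_of_le (by positivity) hCge
  have hYκ4 : Y ^ κ ≤ 4 ^ κ * t ^ κ := by
    rw [← Real.mul_rpow (by norm_num) (by linarith)]
    exact Real.rpow_le_rpow hY0.le hY4 hκ.le
  have h2 : c₁ * (p ^ 2 / 4) * Y ^ (-κ) / 4 ≤ x / 4 := by linarith
  have h1 : C₀ * (p ^ 2 / C) ≤ x / 4 := by
    refine le_trans ?_ h2
    rw [mul_div_assoc', div_le_iff₀ hC0']
    have h3 : c₁ * (p ^ 2 / 4) * Y ^ (-κ) / 4 * (16 * C₀ * Y ^ κ / c₁) = C₀ * p ^ 2 := by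
      have : c₁ * (p ^ 2 / 4) * Y ^ (-κ) / 4 * (16 * C₀ * Y ^ κ / c₁) =
          C₀ * p ^ 2 * (Y ^ (-κ) * Y ^ κ) := by field_simp; ring
      rw [this, hYneg, mul_one]
    rw [← h3]
    exact mul_le_mul_of_nonneg_left hCge (by positivity)
  have h6 : 16 * C₀ * t * Y ^ κ ≤ c₁ * p := by
    have h8 : c₁ * (64 * C₀ * 4 ^ κ / c₁ * t ^ (1 + κ)) = 64 * C₀ * (4 ^ κ * t ^ κ) * t := by
      rw [Real.rpow_add (by linarith), Real.rpow_one]; field_simp
    have h9 : c₁ * (64 * C₀ * 4 ^ κ / c₁ * t ^ (1 + κ)) ≤ c₁ * p :=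
      mul_le_mul_of_nonneg_left hK hc0.le
    rw [h8] at h9
    have h10 : 64 * C₀ * Y ^ κ * t ≤ 64 * C₀ * (4 ^ κ * t ^ κ) * t := by
      gcongr
    have h11 : 0 ≤ C₀ * t * Y ^ κ := by positivity
    nlinarith
  have h4 : C₀ * (p * m) ≤ x / 4 := by
    refine le_trans ?_ h2
    have h7 : C₀ * (p * m) ≤ C₀ * (p * t) := by gcongr
    refine h7.trans ?_
    have h9 : 16 * C₀ * t * Y ^ κ * (p * Y ^ (-κ)) ≤ c₁ * p * (p * Y ^ (-κ)) :=
      mul_le_mul_of_nonneg_right h6 (by positivity)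
    have h10 : 16 * C₀ * t * Y ^ κ * (p * Y ^ (-κ)) = 16 * (C₀ * (p * t)) := by
      have : 16 * C₀ * t * Y ^ κ * (p * Y ^ (-κ)) =
          16 * (C₀ * (p * t)) * (Y ^ (-κ) * Y ^ κ) := by ring
      rw [this, hYneg, mul_one]
    rw [h10] at h9
    have h11 : c₁ * p * (p * Y ^ (-κ)) = 16 * (c₁ * (p ^ 2 / 4) * Y ^ (-κ) / 4) := by ring
    rw [h11] at h9
    linarith
  rw [mul_add]
  linarith

/-- arithmetic: Cauchy–Schwarz -/
theorem arith_edges {x g Dc v Ec : ℝ} (hx0 : 0 < x) (hv : 0 ≤ v) (hEc : 0 ≤ Ec) (hG : x / 2 ≤ g)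
    (hDcard : Dc * v ≤ x) (hCS : g ^ 2 ≤ Dc * Ec) : x * v / 4 ≤ Ec := by
  have h1 : (x / 2) ^ 2 ≤ Dc * Ec := (pow_le_pow_left₀ (by positivity) hG 2).trans hCS
  have h2 : (x / 2) ^ 2 * v ≤ x * Ec := by
    calc (x / 2) ^ 2 * v ≤ (Dc * Ec) * v := mul_le_mul_of_nonneg_right h1 hv
      _ = (Dc * v) * Ec := by ring
      _ ≤ _ := mul_le_mul_of_nonneg_right hDcard hEc
  have h3 : x * (x * v / 4) ≤ x * Ec := by
    refine le_trans (le_of_eq ?_) h2; ring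
  exact le_of_mul_le_mul_left h3 hx0

/-- arithmetic: the number of edges in terms of the level -/
theorem arith_E {c₁ κ Y t p x Ec : ℝ} (hY0 : 0 < Y) (ht0 : 1 ≤ t) (hp : 0 < p)
    (hx : c₁ * (p ^ 2 / 4) * Y ^ (-κ) ≤ x) (hE : x * (Y * (p ^ 2 / (4 * t))) / 4 ≤ Ec) :
    c₁ / 64 * Y ^ (1 - κ) * p ^ 4 ≤ t * Ec := by
  have hYsub : Y ^ (1 - κ) = Y * Y ^ (-κ) := by
    rw [sub_eq_add_neg, Real.rpow_add hY0, Real.rpow_one]
  have hE1 : c₁ * (p ^ 2 / 4) * Y ^ (-κ) * (Y * (p ^ 2 / (4 * t))) / 4 ≤ Ec := by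
    refine le_trans ?_ hE
    gcongr
  have h1 : t * (c₁ * (p ^ 2 / 4) * Y ^ (-κ) * (Y * (p ^ 2 / (4 * t))) / 4) =
      c₁ / 64 * Y ^ (1 - κ) * p ^ 4 := by
    rw [hYsub]; field_simp; ring
  rw [← h1]
  exact mul_le_mul_of_nonneg_left hE1 (by positivity)

/-- arithmetic: multiplicity against the number of edges -/
theorem arith_mult {c₁ κ Y t p m Ec : ℝ} (hc0 : 0 < c₁) (hY0 : 0 < Y) (ht0 : 1 ≤ t) (hp : 0 < p)
    (h3 : 2 * t * m ≤ Y * p ^ 2) (hE2 : c₁ / 64 * Y ^ (1 - κ) * p ^ 4 ≤ t * Ec) :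
    c₁ / 64 * (m * p ^ 2) ≤ Y ^ κ * Ec := by
  have hYsub : Y ^ (1 - κ) = Y * Y ^ (-κ) := by
    rw [sub_eq_add_neg, Real.rpow_add hY0, Real.rpow_one]
  have hYneg : Y ^ (-κ) * Y ^ κ = 1 := by
    rw [← Real.rpow_add hY0]; simp
  have h4 : t * m ≤ Y * p ^ 2 := by
    have : 0 ≤ Y * p ^ 2 := by positivity
    linarith
  have h5 : t * (c₁ / 64 * (m * p ^ 2)) ≤ t * (Y ^ κ * Ec) := by
    calc t * (c₁ / 64 * (m * p ^ 2)) = c₁ / 64 * p ^ 2 * (t * m) := by ring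
      _ ≤ c₁ / 64 * p ^ 2 * (Y * p ^ 2) := mul_le_mul_of_nonneg_left h4 (by positivity)
      _ = (c₁ / 64 * Y ^ (1 - κ) * p ^ 4) * Y ^ κ := by
          rw [hYsub]
          have : c₁ / 64 * (Y * Y ^ (-κ)) * p ^ 4 * Y ^ κ =
            c₁ / 64 * Y * p ^ 4 * (Y ^ (-κ) * Y ^ κ) := by ring
          rw [this, hYneg]; ring
      _ ≤ (t * Ec) * Y ^ κ := mul_le_mul_of_nonneg_right hE2 (by positivity)
      _ = _ := by ring
  exact le_of_mul_le_mul_left h5 (by linarith)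

theorem mult_le (P : Finset (E n)) (δ : ℝ) : (mult P δ : ℝ) ≤ (P.card : ℝ) ^ 2 := by
  classical
  have h6 : mult P δ ≤ P.card * P.card := by
    unfold mult
    refine (card_filter_le _ _).trans ?_
    rw [offDiag_card]
    exact Nat.sub_le _ _
  have h7 : (mult P δ : ℝ) ≤ ((P.card * P.card : ℕ) : ℝ) := by exact_mod_cast h6
  rw [sq]
  push_cast at h7
  exact h7

/-- the good pairs with distance in `D` -/
theorem card_goodD_ge (P : Finset (E n)) (D : Finset ℝ) (C : ℕ) [DecidableEq (E n × E n)]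
    [DecidablePred fun p : E n × E n => dist p.1 p.2 ∈ D] :
    (∑ δ ∈ D, (mult P δ : ℝ)) - ((P.offDiag \ good P C).card : ℝ) ≤
      (((good P C).filter fun p => dist p.1 p.2 ∈ D).card : ℝ) := by
  have h1 : (∑ δ ∈ D, (mult P δ : ℝ)) =
      ((P.offDiag.filter fun p => dist p.1 p.2 ∈ D).card : ℝ) := by
    have h0 := sum_mult P D
    have h0' : (P.offDiag.filter fun p => dist p.1 p.2 ∈ D).card = ∑ δ ∈ D, mult P δ := by
      rw [h0]
      congr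
    rw [h0']
    push_cast; rfl
  have h2 : (P.offDiag.filter fun p => dist p.1 p.2 ∈ D) ⊆
      ((good P C).filter fun p => dist p.1 p.2 ∈ D) ∪ (P.offDiag \ good P C) := by
    intro z hz
    rw [mem_filter] at hz
    rw [mem_union, mem_filter, mem_sdiff]
    by_cases h : z ∈ good P C
    · exact Or.inl ⟨h, hz.2⟩
    · exact Or.inr ⟨hz.1, h⟩
  have h3 : ((P.offDiag.filter fun p => dist p.1 p.2 ∈ D).card : ℝ) ≤
      (((good P C).filter fun p => dist p.1 p.2 ∈ D).card : ℝ) +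
        ((P.offDiag \ good P C).card : ℝ) := by
    exact_mod_cast (card_le_card h2).trans (card_union_le _ _)
  linarith

/-- a level with many pairs -/
theorem exists_lev (P : Finset (E n)) {κ : ℝ} (hκ : 0 < κ) {t : ℕ} (ht : 1 ≤ t)
    (hPt : (dists P).card ≤ t) (hP : 2 ≤ P.card) :
    ∃ j : ℕ, (1 - (2 : ℝ) ^ (-κ)) * ((P.card : ℝ) ^ 2 / 4) * ((2 : ℝ) ^ j) ^ (-κ) ≤
      ∑ δ ∈ lev P ((P.card : ℝ) ^ 2 / (4 * t)) j, (mult P δ : ℝ) := by
  have hP' : (2 : ℝ) ≤ P.card := by exact_mod_cast hP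
  obtain ⟨j, -, hj⟩ := exists_level hκ (S := (P.card : ℝ) ^ 2 / 4) (by positivity) (4 * t) _
    (sum_lev P ht hPt hP)
  refine ⟨j, ?_⟩
  have hqj : ((2 : ℝ) ^ (-κ)) ^ j = ((2 : ℝ) ^ j) ^ (-κ) := by
    rw [← Real.rpow_natCast, ← Real.rpow_natCast, ← Real.rpow_mul (by norm_num),
      ← Real.rpow_mul (by norm_num)]
    congr 1; ring
  rw [← hqj]; exact hj

theorem lev_bound (P : Finset (E n)) {t : ℕ} (ht : 1 ≤ t) (hP : 2 ≤ P.card) {j : ℕ} {δ : ℝ}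
    (hδ : δ ∈ lev P ((P.card : ℝ) ^ 2 / (4 * t)) j) :
    (2 : ℝ) ^ j ≤ 4 * t ∧ 2 * (t : ℝ) * mult P δ ≤ 2 ^ j * (P.card : ℝ) ^ 2 := by
  have hp : (2 : ℝ) ≤ P.card := by exact_mod_cast hP
  have ht0 : (1 : ℝ) ≤ t := by exact_mod_cast ht
  obtain ⟨-, h1, h2⟩ := mem_lev.1 hδ
  constructor
  · have h3 : (2 : ℝ) ^ j * ((P.card : ℝ) ^ 2 / (4 * t)) ≤
        (4 * t) * ((P.card : ℝ) ^ 2 / (4 * t)) := by
      refine (h1.trans (mult_le P δ)).trans (le_of_eq ?_)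
      field_simp
    exact le_of_mul_le_mul_right h3 (by positivity)
  · have h3 : 2 * (t : ℝ) * (2 ^ (j + 1) * ((P.card : ℝ) ^ 2 / (4 * t))) =
        2 ^ j * (P.card : ℝ) ^ 2 := by
      rw [pow_succ]; field_simp; ring
    rw [← h3]
    exact mul_le_mul_of_nonneg_left h2.le (by positivity)

/-- **[S]** the start: a class `D` of distances of multiplicity about `2^j |P|^2 / t`, which contains
a fraction `≥ c 2^(-κ j)` of all pairs, and the edges between pairs on lines with at most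
`C ≤ K₁ 2^(κ j)` points whose distance lies in `D`. -/
theorem exists_start (n : ℕ) {C₀ κ : ℝ} (hC₀ : 1 ≤ C₀) (hκ : 0 < κ) :
    ∃ c K₁ : ℝ, 0 < c ∧ c ≤ 1 ∧ 1 ≤ K₁ ∧ ∀ (t : ℕ) (P : Finset (E n)), 1 ≤ t →
      (dists P).card ≤ t → BadLe P C₀ → K₁ * (t : ℝ) ^ (1 + κ) ≤ P.card →
      ∃ (D : Finset ℝ) (j C : ℕ), D ⊆ dists P ∧ D.Nonempty ∧ (2 : ℝ) ^ j ≤ 4 * t ∧ 1 ≤ C ∧
        (C : ℝ) ≤ K₁ * ((2 : ℝ) ^ j) ^ κ ∧
        (∀ δ ∈ D, 2 * (t : ℝ) * mult P δ ≤ 2 ^ j * (P.card : ℝ) ^ 2) ∧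
        c * ((2 : ℝ) ^ j) ^ (1 - κ) * (P.card : ℝ) ^ 4 ≤ t * (edgesD P C D).card ∧
        (∀ δ ∈ D, c * ((mult P δ : ℝ) * (P.card : ℝ) ^ 2) ≤
          ((2 : ℝ) ^ j) ^ κ * (edgesD P C D).card) := by
  classical
  have hq0 : 0 < (2 : ℝ) ^ (-κ) := by positivity
  have hq1 : (2 : ℝ) ^ (-κ) < 1 :=
    Real.rpow_lt_one_of_one_lt_of_neg (by norm_num) (by linarith)
  obtain ⟨c₁, hc₁⟩ : ∃ c₁ : ℝ, c₁ = 1 - (2 : ℝ) ^ (-κ) := ⟨_, rfl⟩
  have hc0 : 0 < c₁ := by linarith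
  have hc1 : c₁ ≤ 1 := by linarith
  have hK0 : 0 ≤ 64 * C₀ * 4 ^ κ / c₁ := by positivity
  refine ⟨c₁ / 64, 64 * C₀ * 4 ^ κ / c₁ + 2, by positivity, by linarith, by linarith, ?_⟩
  intro t P ht hPt hbad hK
  have ht0 : (1 : ℝ) ≤ t := by exact_mod_cast ht
  have htp : (1 : ℝ) ≤ (t : ℝ) ^ (1 + κ) := Real.one_le_rpow ht0 (by linarith)
  have hp2 : (2 : ℝ) ≤ (P.card : ℝ) := by
    have h1 : 2 * 1 ≤ (64 * C₀ * 4 ^ κ / c₁ + 2) * (t : ℝ) ^ (1 + κ) :=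
      mul_le_mul (by linarith) htp zero_le_one (by linarith)
    linarith
  have hP2 : 2 ≤ P.card := by exact_mod_cast hp2
  have hK' : 64 * C₀ * 4 ^ κ / c₁ * (t : ℝ) ^ (1 + κ) ≤ P.card :=
    (mul_le_mul_of_nonneg_right (by linarith) (by positivity)).trans hK
  obtain ⟨j, hj⟩ := exists_lev P hκ ht hPt hP2
  rw [← hc₁] at hj
  obtain ⟨D, hD⟩ : ∃ D, D = lev P ((P.card : ℝ) ^ 2 / (4 * t)) j := ⟨_, rfl⟩
  rw [← hD] at hj
  obtain ⟨Y, hY⟩ : ∃ Y : ℝ, Y = (2 : ℝ) ^ j := ⟨_, rfl⟩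
  rw [← hY] at hj
  have hY1 : 1 ≤ Y := by rw [hY]; exact one_le_pow₀ (by norm_num)
  have hY0 : 0 < Y := by linarith
  obtain ⟨x, hx⟩ : ∃ x : ℝ, x = ∑ δ ∈ D, (mult P δ : ℝ) := ⟨_, rfl⟩
  rw [← hx] at hj
  have hx0 : 0 < x := lt_of_lt_of_le (by positivity) hj
  have hDne : D.Nonempty := by
    rw [Finset.nonempty_iff_ne_empty]
    intro h0
    rw [hx, h0, sum_empty] at hx0
    exact lt_irrefl _ hx0
  have hlev : ∀ δ ∈ D, (2 : ℝ) ^ j ≤ 4 * t ∧ 2 * (t : ℝ) * mult P δ ≤ 2 ^ j * (P.card : ℝ) ^ 2 := by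
    intro δ hδ
    rw [hD] at hδ
    exact lev_bound P ht hP2 hδ
  have hY4 : Y ≤ 4 * t := by
    obtain ⟨δ, hδ⟩ := hDne
    rw [hY]; exact (hlev δ hδ).1
  have hYκ : 1 ≤ Y ^ κ := Real.one_le_rpow hY1 hκ.le
  obtain ⟨C, hC⟩ : ∃ C : ℕ, C = ⌈16 * C₀ * Y ^ κ / c₁⌉₊ := ⟨_, rfl⟩
  have hCge : 16 * C₀ * Y ^ κ / c₁ ≤ C := by rw [hC]; exact Nat.le_ceil _
  have hCle : (C : ℝ) ≤ 16 * C₀ * Y ^ κ / c₁ + 1 := by
    rw [hC]; exact (Nat.ceil_lt_add_one (by positivity)).le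
  have h16 : 16 ≤ 16 * C₀ * Y ^ κ / c₁ := by
    rw [le_div_iff₀ hc0]
    nlinarith [mul_le_mul hC₀ hYκ zero_le_one (by linarith)]
  have hC1r : (1 : ℝ) ≤ C := by linarith
  have hC1 : 1 ≤ C := by exact_mod_cast hC1r
  -- the number of edges
  have hb : ((P.offDiag \ good P C).card : ℝ) ≤ x / 2 := by
    refine (hbad C hC1).trans ?_
    exact arith_bad hc0 hC₀ hκ hY1 ht0 (by linarith) hY4 (by exact_mod_cast hPt) hCge hj hK'
  have hG : x / 2 ≤ (((good P C).filter fun p => dist p.1 p.2 ∈ D).card : ℝ) := by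
    have := card_goodD_ge P D C
    rw [← hx] at this
    linarith
  have hDcard : (D.card : ℝ) * (Y * ((P.card : ℝ) ^ 2 / (4 * t))) ≤ x := by
    rw [hx, ← nsmul_eq_mul, ← Finset.sum_const]
    refine Finset.sum_le_sum fun δ hδ => ?_
    rw [hD] at hδ
    rw [hY]
    exact (mem_lev.1 hδ).2.1
  have hCS : (((good P C).filter fun p => dist p.1 p.2 ∈ D).card : ℝ) ^ 2 ≤
      D.card * (edgesD P C D).card := by
    exact_mod_cast card_edgesD_ge P C D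
  have hE0 := arith_edges hx0 (by positivity) (Nat.cast_nonneg _) hG hDcard hCS
  have hE2 := arith_E hY0 ht0 (by linarith) hj hE0
  refine ⟨D, j, C, ?_, hDne, by rw [← hY]; exact hY4, hC1, ?_, fun δ hδ => (hlev δ hδ).2, ?_, ?_⟩
  · intro δ hδ
    rw [hD] at hδ
    exact (mem_lev.1 hδ).1
  · rw [← hY]
    refine hCle.trans ?_
    have h1 : 16 * C₀ * Y ^ κ / c₁ + 1 ≤ (16 * C₀ / c₁ + 1) * Y ^ κ := by
      have : 16 * C₀ * Y ^ κ / c₁ = 16 * C₀ / c₁ * Y ^ κ := by ring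
      rw [this]; nlinarith
    refine h1.trans (mul_le_mul_of_nonneg_right ?_ (by positivity))
    have h2 : 16 * C₀ / c₁ ≤ 64 * C₀ * 4 ^ κ / c₁ := by
      refine div_le_div_of_nonneg_right ?_ hc0.le
      have h3 : (1 : ℝ) ≤ 4 ^ κ := Real.one_le_rpow (by norm_num) hκ.le
      nlinarith
    linarith
  · rw [← hY]; exact hE2
  · intro δ hδ
    rw [← hY]
    refine arith_mult hc0 hY0 ht0 (by linarith) ?_ hE2
    rw [hY]; exact (hlev δ hδ).2

end Vale.Agent.P054.T3.H190
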