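import Vale.Agent.P054.T3.H190.FlagE

set_option autoImplicit false
set_option linter.all false

/-!
# P054 / T3: the start, `n ≥ 3`: the extremal vertex set
-/

namespace Vale.Agent.P054.T3.H190

open Finset
open Vale.Agent.P054.T2 Vale.Agent.P054.T2.SecC
open Vale.Agent.P054.T2.H686 (E zt zt_injective Ez Sz Gm dists)
open Vale.Agent.P054.T3.H533 (MuK)

/-- the extremal subset -/
theorem exists_ext {V : Type*} (Ω : Finset V) (w : Finset V → ℝ) {z₀ θ : ℝ} (h0 : 0 < z₀)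
    (hΩ : z₀ ≤ Ω.card) :
    ∃ S ⊆ Ω, z₀ ≤ S.card ∧
      ∀ T ⊆ Ω, z₀ ≤ T.card → w T * (S.card : ℝ) ^ θ ≤ w S * (T.card : ℝ) ^ θ := by
  classical
  set F : Finset (Finset V) := Ω.powerset.filter fun T => z₀ ≤ (T.card : ℝ) with hF
  have hne : F.Nonempty := ⟨Ω, mem_filter.2 ⟨mem_powerset.2 subset_rfl, hΩ⟩⟩
  obtain ⟨S, hS, hmax⟩ := exists_max_image F (fun T => w T / (T.card : ℝ) ^ θ) hne
  obtain ⟨hS1, hS2⟩ := mem_filter.1 hS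
  refine ⟨S, mem_powerset.1 hS1, hS2, ?_⟩
  intro T hT hT2
  have h := hmax T (mem_filter.2 ⟨mem_powerset.2 hT, hT2⟩)
  have hSp : (0 : ℝ) < (S.card : ℝ) ^ θ := Real.rpow_pos_of_pos (h0.trans_le hS2) _
  have hTp : (0 : ℝ) < (T.card : ℝ) ^ θ := Real.rpow_pos_of_pos (h0.trans_le hT2) _
  rwa [div_le_div_iff₀ hTp hSp] at h

/-- arithmetic of the start -/
theorem start_num {p s w v t ε₁ : ℝ} (hp : 0 < p) (hs : 0 < s) (ht : 1 ≤ t) (hε1 : ε₁ ≤ 1)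
    (hsp : s ≤ p ^ 2) (hst : t ^ (-ε₁) * p ^ 2 ≤ s) (hv : p ^ 4 ≤ 2 ^ 16 * (t * v))
    (hmax : v * s ^ ((7 : ℝ) / 5) ≤ w * (p ^ 2) ^ ((7 : ℝ) / 5)) :
    ∃ z : ℝ, s = z * p ^ 2 ∧ t ^ (-ε₁) ≤ z ∧ z ≤ 1 ∧ 0 < w ∧
      s ^ 2 / w ≤ 2 ^ 16 * (t * z ^ ((3 : ℝ) / 5)) ∧ 1 ≤ t * z ^ ((3 : ℝ) / 5) := by
  have ht0 : (0 : ℝ) < t := by linarith
  have hp2 : 0 < p ^ 2 := by positivity
  have hz₀ : 0 < t ^ (-ε₁) := Real.rpow_pos_of_pos ht0 _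
  obtain ⟨z, hz⟩ : ∃ z : ℝ, z = s / p ^ 2 := ⟨_, rfl⟩
  have hzS : s = z * p ^ 2 := by rw [hz, div_mul_cancel₀ _ hp2.ne']
  have hz0 : 0 < z := by rw [hz]; exact div_pos hs hp2
  have hz1 : z ≤ 1 := by rw [hz, div_le_one hp2]; exact hsp
  have hzt : t ^ (-ε₁) ≤ z := by rw [hz, le_div_iff₀ hp2]; exact hst
  have hzp : (0 : ℝ) < z ^ ((7 : ℝ) / 5) := Real.rpow_pos_of_pos hz0 _
  have hz3 : (0 : ℝ) < z ^ ((3 : ℝ) / 5) := Real.rpow_pos_of_pos hz0 _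
  have h2 : v * z ^ ((7 : ℝ) / 5) ≤ w := by
    have h1 : s ^ ((7 : ℝ) / 5) = z ^ ((7 : ℝ) / 5) * (p ^ 2) ^ ((7 : ℝ) / 5) := by
      rw [hzS, Real.mul_rpow hz0.le hp2.le]
    rw [h1, ← mul_assoc] at hmax
    exact le_of_mul_le_mul_right hmax (Real.rpow_pos_of_pos hp2 _)
  have hW3 : z ^ ((7 : ℝ) / 5) * p ^ 4 ≤ 2 ^ 16 * (t * w) := by
    calc z ^ ((7 : ℝ) / 5) * p ^ 4 ≤ z ^ ((7 : ℝ) / 5) * (2 ^ 16 * (t * v)) :=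
          mul_le_mul_of_nonneg_left hv hzp.le
      _ = 2 ^ 16 * (t * (v * z ^ ((7 : ℝ) / 5))) := by ring
      _ ≤ 2 ^ 16 * (t * w) := by
          have := mul_le_mul_of_nonneg_left h2 ht0.le
          linarith
  have hw0 : 0 < w := by
    have h1 : 0 < z ^ ((7 : ℝ) / 5) * p ^ 4 := by positivity
    have h3 : 0 < 2 ^ 16 * (t * w) := h1.trans_le hW3
    have h4 : 0 < t * w := by linarith
    exact (pos_iff_pos_of_mul_pos h4).1 ht0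
  refine ⟨z, hzS, hzt, hz1, hw0, ?_, ?_⟩
  · rw [div_le_iff₀ hw0]
    have h1 : z ^ 2 = z ^ ((3 : ℝ) / 5) * z ^ ((7 : ℝ) / 5) := by
      rw [← Real.rpow_add hz0]; norm_num
    have h3 : s ^ 2 = z ^ ((3 : ℝ) / 5) * (z ^ ((7 : ℝ) / 5) * p ^ 4) := by
      rw [← mul_assoc, ← h1, hzS]; ring
    rw [h3]
    calc z ^ ((3 : ℝ) / 5) * (z ^ ((7 : ℝ) / 5) * p ^ 4)
        ≤ z ^ ((3 : ℝ) / 5) * (2 ^ 16 * (t * w)) := mul_le_mul_of_nonneg_left hW3 hz3.le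
      _ = 2 ^ 16 * (t * z ^ ((3 : ℝ) / 5)) * w := by ring
  · have h1 : (t ^ (-ε₁)) ^ ((3 : ℝ) / 5) ≤ z ^ ((3 : ℝ) / 5) :=
      Real.rpow_le_rpow hz₀.le hzt (by norm_num)
    have h4 : (t ^ (-ε₁)) ^ ((3 : ℝ) / 5) = t ^ (-ε₁ * ((3 : ℝ) / 5)) := by
      rw [← Real.rpow_mul ht0.le]
    have h3 : (1 : ℝ) ≤ t ^ (1 + -ε₁ * ((3 : ℝ) / 5)) :=
      Real.one_le_rpow ht (by linarith)
    rw [Real.rpow_add ht0, Real.rpow_one] at h3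
    rw [h4] at h1
    exact h3.trans (mul_le_mul_of_nonneg_left h1 ht0.le)

variable {n : ℕ}

/-- **START for `n ≥ 3`** (any `n`): the extremal set `S` of pairs of points, for the number of
flags and the exponent `7/5` -/
theorem exists_startG {P : Finset (E n)} {t : ℕ} (ht : (dists P).card ≤ t) (ht1 : 1 ≤ t)
    (hP : 256 * (2 * t + 1) ≤ P.card) {ε₁ : ℝ} (hε0 : 0 ≤ ε₁) (hε1 : ε₁ ≤ 1) :
    ∃ S ⊆ P ×ˢ P, ∃ (z : ℝ) (τ : ℕ), S.Nonempty ∧ (S.card : ℝ) = z * (P.card : ℝ) ^ 2 ∧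
      (t : ℝ) ^ (-ε₁) ≤ z ∧ z ≤ 1 ∧ 1 ≤ τ ∧ S.card ^ 2 ≤ τ * W adjE S ∧
      (τ : ℝ) ≤ 2 ^ 17 * (t * z ^ ((3 : ℝ) / 5)) ∧ 1 ≤ W adjE S ∧
      -- extremality, in the form of `cells_W`
      (∀ T ⊆ S, (t : ℝ) ^ (-ε₁) * (P.card : ℝ) ^ 2 ≤ T.card →
        (W adjE T : ℝ) * (S.card : ℝ) ^ ((7 : ℝ) / 5) ≤
          (W adjE S : ℝ) * (T.card : ℝ) ^ ((7 : ℝ) / 5)) := by
  classical
  have htr : (1 : ℝ) ≤ t := by exact_mod_cast ht1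
  have ht0 : (0 : ℝ) < t := by linarith
  have hp0 : (0 : ℝ) < P.card := by
    have : 0 < P.card := lt_of_lt_of_le (by positivity) hP
    exact_mod_cast this
  have hp2 : (0 : ℝ) < (P.card : ℝ) ^ 2 := pow_pos hp0 2
  have hz₀ : 0 < (t : ℝ) ^ (-ε₁) := Real.rpow_pos_of_pos ht0 _
  have hz₀1 : (t : ℝ) ^ (-ε₁) ≤ 1 := by
    rw [Real.rpow_neg ht0.le]
    exact inv_le_one_of_one_le₀ (Real.one_le_rpow htr hε0)
  have hfull : ((P ×ˢ P).card : ℝ) = (P.card : ℝ) ^ 2 := by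
    rw [card_product]; push_cast; ring
  have hle : (t : ℝ) ^ (-ε₁) * (P.card : ℝ) ^ 2 ≤ (P ×ˢ P).card := by
    rw [hfull]
    calc (t : ℝ) ^ (-ε₁) * (P.card : ℝ) ^ 2 ≤ 1 * (P.card : ℝ) ^ 2 :=
          mul_le_mul_of_nonneg_right hz₀1 hp2.le
      _ = _ := one_mul _
  obtain ⟨S, hS, hS1, hmax⟩ := exists_ext (P ×ˢ P) (fun T => (W adjE T : ℝ)) (θ := (7 : ℝ) / 5)
    (z₀ := (t : ℝ) ^ (-ε₁) * (P.card : ℝ) ^ 2) (mul_pos hz₀ hp2) hle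
  have hScard : (0 : ℝ) < S.card := lt_of_lt_of_le (mul_pos hz₀ hp2) hS1
  have hSne : S.Nonempty := card_pos.1 (by exact_mod_cast hScard)
  have hSle : (S.card : ℝ) ≤ (P.card : ℝ) ^ 2 := by
    rw [← hfull]; exact_mod_cast card_le_card hS
  have hW1 : (P.card : ℝ) ^ 4 ≤ 2 ^ 16 * (t * (W adjE (P ×ˢ P) : ℝ)) := by
    exact_mod_cast W_full_ge ht hP
  have hW2 := hmax (P ×ˢ P) subset_rfl hle
  rw [hfull] at hW2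
  obtain ⟨z, hzS, hzt, hz1, hw0, hx1, hx2⟩ := start_num hp0 hScard htr hε1 hSle hS1 hW1 hW2
  have hw1 : 0 < W adjE S := by exact_mod_cast hw0
  have hx0 : (0 : ℝ) < (S.card : ℝ) ^ 2 / (W adjE S : ℝ) := div_pos (pow_pos hScard 2) hw0
  refine ⟨S, hS, z, ⌈(S.card : ℝ) ^ 2 / (W adjE S : ℝ)⌉₊, hSne, hzS, hzt, hz1,
    Nat.one_le_iff_ne_zero.2 (Nat.ceil_pos.2 hx0).ne', ?_, ?_, hw1, ?_⟩
  · have h1 : (S.card : ℝ) ^ 2 ≤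
        (⌈(S.card : ℝ) ^ 2 / (W adjE S : ℝ)⌉₊ : ℝ) * (W adjE S : ℝ) := by
      have h2 := Nat.le_ceil ((S.card : ℝ) ^ 2 / (W adjE S : ℝ))
      rwa [div_le_iff₀ hw0] at h2
    exact_mod_cast h1
  · have h1 := (Nat.ceil_lt_add_one hx0.le).le
    linarith
  · intro T hT hT2
    exact hmax T (hT.trans hS) hT2

end Vale.Agent.P054.T3.H190
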