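import Vale.Agent.P054.T3.H190.Start
import Vale.Agent.P054.T3.H109.ST
import Vale.Agent.P054.T2.H686.Setup

set_option autoImplicit false
set_option linter.all false

/-!
# P054 / T3: the start of the lossless proof, in the coordinates `(ζ, θ)`
-/

namespace Vale.Agent.P054.T3.H190

open Finset Vale.Agent.P054.T2.H686 Vale.Agent.P054.T2.H269
open Vale.Agent.P054.T2.SecC (ZZ)

variable {n : ℕ}

theorem lineC_eq_lineCard (P : Finset (E n)) (x y : E n) :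
    Vale.Agent.P054.T3.H109.Gen.lineC P x y = lineCard P x y := by
  classical
  rw [lineCard_eq, Vale.Agent.P054.T3.H109.Gen.lineC_eq]
  congr 1

/-- few pairs on rich lines, for every finite set -/
theorem badLe (P : Finset (E n)) : BadLe P 373296 := by
  classical
  intro C hC
  have hC0 : (0 : ℝ) < C := by exact_mod_cast hC
  rcases (P.offDiag).eq_empty_or_nonempty with h0 | ⟨z, hz⟩
  · rw [h0, Finset.empty_sdiff, card_empty]
    push_cast
    positivity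
  have hm : 1 ≤ (dists P).card := by
    rw [mem_offDiag] at hz
    refine Finset.card_pos.2 ⟨dist z.1 z.2, ?_⟩
    have : dist z.1 z.2 ∈ (dists P : Set ℝ) := by
      rw [coe_dists]
      exact ⟨z.1, hz.1, z.2, hz.2.1, hz.2.2, rfl⟩
    exact this
  have hmr : (1 : ℝ) ≤ (dists P).card := by exact_mod_cast hm
  have h1 := Vale.Agent.P054.T3.H109.Gen.st_pairs P C (2 * (dists P).card + 1) hC (by
    intro p hp
    rw [lineC_eq_lineCard]
    rw [mem_offDiag] at hp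
    exact lineCard_le P hp.1 hp.2.2)
  have h2 : ((P.offDiag \ good P C).card : ℝ) ≤
      ((P.offDiag.filter fun p => C ≤ Vale.Agent.P054.T3.H109.Gen.lineC P p.1 p.2).card : ℝ) := by
    refine Nat.cast_le.2 (card_le_card ?_)
    intro p hp
    rw [mem_sdiff, good, mem_filter] at hp
    rw [mem_filter, lineC_eq_lineCard]
    refine ⟨hp.1, ?_⟩
    by_contra h
    exact hp.2 ⟨hp.1, by omega⟩
  refine h2.trans (h1.trans ?_)
  push_cast
  have h3 : 0 ≤ (P.card : ℝ) ^ 2 / C := by positivity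
  have h4 : (16 : ℝ) * P.card * (2 * (dists P).card + 1) ≤
      48 * (P.card * (dists P).card) := by
    have h5 : (0 : ℝ) ≤ P.card := Nat.cast_nonneg _
    nlinarith
  have h5 : (0 : ℝ) ≤ P.card * (dists P).card := by positivity
  nlinarith

/-- the edges with distance in `D`, in the coordinates `(ζ, θ)` -/
noncomputable def EzD (P : Finset (E n)) (B : E n ≃ₗᵢ[ℝ] E n) (C : ℕ) (D : Finset ℝ) :
    Finset (ZZ n × ZZ n) := by
  classical
  exact (edgesD P C D).image fun e => (zt B e.1, zt B e.2)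

theorem mem_EzD {P : Finset (E n)} {B : E n ≃ₗᵢ[ℝ] E n} {C : ℕ} {D : Finset ℝ}
    {e : ZZ n × ZZ n} : e ∈ EzD P B C D ↔ ∃ a ∈ edgesD P C D, (zt B a.1, zt B a.2) = e := by
  classical
  simp only [EzD, Finset.mem_image]

theorem mem_EzD' {P : Finset (E n)} {B : E n ≃ₗᵢ[ℝ] E n} {C : ℕ} {D : Finset ℝ}
    {s r : E n × E n} : (zt B s, zt B r) ∈ EzD P B C D ↔ (s, r) ∈ edgesD P C D := by
  rw [mem_EzD]
  constructor
  · rintro ⟨a, ha, h⟩
    have h1 := congrArg Prod.fst h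
    have h2 := congrArg Prod.snd h
    have h3 : a.1 = s := zt_injective B h1
    have h4 : a.2 = r := zt_injective B h2
    rwa [← h3, ← h4]
  · intro h
    exact ⟨(s, r), h, rfl⟩

theorem EzD_subset (P : Finset (E n)) (B : E n ≃ₗᵢ[ℝ] E n) (C : ℕ) (D : Finset ℝ) :
    EzD P B C D ⊆ Ez P B C := by
  intro e he
  obtain ⟨a, ha, rfl⟩ := mem_EzD.1 he
  exact mem_Ez.2 ⟨a, edgesD_subset P C D ha, rfl⟩

theorem EzD_swap {P : Finset (E n)} {B : E n ≃ₗᵢ[ℝ] E n} {C : ℕ} {D : Finset ℝ}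
    {e : ZZ n × ZZ n} (h : e ∈ EzD P B C D) : e.swap ∈ EzD P B C D := by
  obtain ⟨a, ha, rfl⟩ := mem_EzD.1 h
  exact mem_EzD.2 ⟨(a.2, a.1), edgesD_symm ha, rfl⟩

theorem card_EzD (P : Finset (E n)) (B : E n ≃ₗᵢ[ℝ] E n) (C : ℕ) (D : Finset ℝ) :
    (EzD P B C D).card = (edgesD P C D).card := by
  classical
  unfold EzD
  refine Finset.card_image_of_injective _ ?_
  intro a b h
  exact Prod.ext (zt_injective B (congrArg Prod.fst h)) (zt_injective B (congrArg Prod.snd h))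

/-- the sum of the squares of the multiplicities bounds the edges between any pairs: for every set
`X` of ordered pairs of points there are at most `|X| * μ` edges of `EzD` over `X` -/
theorem card_over_le (P : Finset (E n)) (C : ℕ) (D : Finset ℝ) (μ : ℕ)
    (hμ : ∀ δ ∈ D, mult P δ ≤ μ) (X : Finset (E n × E n))
    (A : Finset ((E n × E n) × (E n × E n))) (hA : A ⊆ edgesD P C D)
    (hX : ∀ e ∈ A, (e.1.1, e.2.1) ∈ X) : A.card ≤ X.card * μ := by
  classical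
  refine Finset.card_le_mul_card_image_of_maps_to (f := fun e => (e.1.1, e.2.1)) hX μ ?_ |>.trans
    (le_of_eq (mul_comm _ _))
  intro x hx
  rcases (A.filter fun e => (e.1.1, e.2.1) = x).eq_empty_or_nonempty with h0 | ⟨e₀, he₀⟩
  · rw [h0]; simp
  rw [mem_filter] at he₀
  have hd := (mem_edgesD.1 (hA he₀.1)).2
  refine le_trans ?_ (hμ _ hd)
  unfold mult
  refine Finset.card_le_card_of_injOn (fun e => (e.1.2, e.2.2)) ?_ ?_
  · intro e he
    rw [Finset.mem_coe, mem_filter] at he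
    have h1 := (mem_edges.1 (edges₀_subset P C (edgesD_subset P C D (hA he.1))))
    rw [Finset.mem_coe, mem_filter, mem_offDiag]
    refine ⟨⟨h1.1.1.2, h1.1.2.2,
      mem_edges_snd_ne (edges₀_subset P C (edgesD_subset P C D (hA he.1)))⟩, ?_⟩
    have h2 : (e.1.1, e.2.1) = (e₀.1.1, e₀.2.1) := he.2.trans he₀.2.symm
    rw [← (Prod.mk.inj h2).1, ← (Prod.mk.inj h2).2]
    exact h1.2.2.symm
  · intro e he e' he' h
    rw [Finset.mem_coe, mem_filter] at he he'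
    have h2 : (e.1.1, e.2.1) = (e'.1.1, e'.2.1) := he.2.trans he'.2.symm
    simp only [Prod.mk.injEq] at h h2
    exact Prod.ext (Prod.ext h2.1 h.1) (Prod.ext h2.2 h.2)

/-- **[S]** the start in the form of `MainOut.start`.  `y = 2 ^ j` is the multiplicity class. -/
theorem exists_startZ (n : ℕ) (hn : 2 ≤ n) {κ : ℝ} (hκ : 0 < κ) (hκ1 : κ ≤ 1 / 2) :
    ∃ c K₁ : ℝ, 0 < c ∧ c ≤ 1 ∧ 1 ≤ K₁ ∧ ∀ K : ℝ, K₁ ≤ K → ∀ (t : ℕ) (P : Finset (E n)), 1 ≤ t →
      (dists P).card ≤ t → K * (t : ℝ) ^ (((n + 1 : ℕ) : ℝ) / 2) ≤ P.card →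
      ∃ (D : Finset ℝ) (j C τ : ℕ), D ⊆ dists P ∧ D.Nonempty ∧ (2 : ℝ) ^ j ≤ 4 * t ∧ 1 ≤ C ∧
        1 ≤ τ ∧
        -- at most `C` points on every line
        (C : ℝ) ≤ K₁ * ((2 : ℝ) ^ j) ^ κ ∧
        -- the effective number of distances
        (τ : ℝ) ≤ K₁ * (t * ((2 : ℝ) ^ j) ^ (κ - 1)) ∧
        (∀ B : E n ≃ₗᵢ[ℝ] E n, (Sz P B).card * (Sz P B).card ≤ τ * (EzD P B C D).card) ∧
        -- the number of edges
        (∀ B : E n ≃ₗᵢ[ℝ] E n, c * (((2 : ℝ) ^ j) ^ (1 - κ) * K ^ 2 * (P.card : ℝ) ^ 2 *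
          (t : ℝ) ^ n) ≤ (EzD P B C D).card) ∧
        -- the multiplicities of the distances
        (∀ δ ∈ D, 2 * (t : ℝ) * mult P δ ≤ 2 ^ j * (P.card : ℝ) ^ 2) ∧
        (∀ B : E n ≃ₗᵢ[ℝ] E n, ∀ δ ∈ D, c * ((mult P δ : ℝ) * (P.card : ℝ) ^ 2) ≤
          ((2 : ℝ) ^ j) ^ κ * (EzD P B C D).card) := by
  obtain ⟨c, K₁, hc, hc1, hK₁, h⟩ := exists_start n (C₀ := 373296) (by norm_num) hκ
  refine ⟨c, max K₁ (5 / c), hc, hc1, hK₁.trans (le_max_left _ _), ?_⟩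
  intro K hK t P ht hPt hKP
  have hKK₁ : K₁ ≤ K := (le_max_left _ _).trans hK
  have hK0 : 1 ≤ K := hK₁.trans hKK₁
  have ht0 : (1 : ℝ) ≤ t := by exact_mod_cast ht
  have h1 : K₁ * (t : ℝ) ^ (1 + κ) ≤ P.card := by
    refine le_trans ?_ hKP
    refine mul_le_mul hKK₁ ?_ (by positivity) (by linarith)
    refine Real.rpow_le_rpow_of_exponent_le ht0 ?_
    have : (2 : ℝ) ≤ n := by exact_mod_cast hn
    push_cast
    linarith
  obtain ⟨D, j, C, hD, hDne, hj, hC, hCK, hmu, hE, hmE⟩ := h t P ht hPt (badLe P) h1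
  obtain ⟨Y, hY⟩ : ∃ Y : ℝ, Y = (2 : ℝ) ^ j := ⟨_, rfl⟩
  rw [← hY] at hj hCK hmu hE hmE
  have hY1 : 1 ≤ Y := by rw [hY]; exact one_le_pow₀ (by norm_num)
  have hY0 : 0 < Y := by linarith
  have hYκ : 1 ≤ Y ^ κ := Real.one_le_rpow hY1 hκ.le
  have hYs : Y ^ (κ - 1) * Y ^ (1 - κ) = 1 := by
    rw [← Real.rpow_add hY0]; simp
  have hYs' : Y ^ (κ - 1) = Y ^ κ / Y := by
    rw [Real.rpow_sub hY0, Real.rpow_one]
  have htY : 1 / 4 ≤ t * Y ^ (κ - 1) := by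
    rw [hYs', mul_div_assoc', le_div_iff₀ hY0]
    nlinarith
  obtain ⟨τ, hτ⟩ : ∃ τ : ℕ, τ = ⌈t * Y ^ (κ - 1) / c⌉₊ := ⟨_, rfl⟩
  have hτ1 : t * Y ^ (κ - 1) / c ≤ τ := by rw [hτ]; exact Nat.le_ceil _
  have hpos : 0 < t * Y ^ (κ - 1) / c := by positivity
  have hτ2 : (τ : ℝ) ≤ t * Y ^ (κ - 1) / c + 1 := by
    rw [hτ]; exact (Nat.ceil_lt_add_one hpos.le).le
  have hτ3 : 1 ≤ τ := by
    have : (0 : ℝ) < τ := lt_of_lt_of_le hpos hτ1
    exact_mod_cast this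
  refine ⟨D, j, C, τ, hD, hDne, by rw [← hY]; exact hj, hC, hτ3, ?_, ?_, ?_, ?_, ?_, ?_⟩
  · rw [← hY]
    exact hCK.trans (mul_le_mul_of_nonneg_right (le_max_left _ _) (by positivity))
  · rw [← hY]
    have h2 : t * Y ^ (κ - 1) / c + 1 ≤ 5 / c * (t * Y ^ (κ - 1)) := by
      have h3 : 1 ≤ 4 * (t * Y ^ (κ - 1)) := by linarith
      have h4 : 4 * (t * Y ^ (κ - 1)) ≤ 4 * (t * Y ^ (κ - 1)) / c := by
        rw [le_div_iff₀ hc]
        nlinarith
      have h5 : 5 / c * (t * Y ^ (κ - 1)) = t * Y ^ (κ - 1) / c + 4 * (t * Y ^ (κ - 1)) / c := by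
        ring
      rw [h5]
      linarith
    exact (hτ2.trans h2).trans (mul_le_mul_of_nonneg_right (le_max_right _ _) (by positivity))
  · intro B
    rw [card_Sz, card_EzD]
    have h2 : (P.card : ℝ) ^ 4 ≤ τ * (edgesD P C D).card := by
      have h3 : (t * Y ^ (κ - 1) / c) * (edgesD P C D).card ≤ τ * (edgesD P C D).card :=
        mul_le_mul_of_nonneg_right hτ1 (Nat.cast_nonneg _)
      refine le_trans ?_ h3
      have h4 : Y ^ (κ - 1) / c * (c * Y ^ (1 - κ) * (P.card : ℝ) ^ 4) ≤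
          Y ^ (κ - 1) / c * (t * (edgesD P C D).card) :=
        mul_le_mul_of_nonneg_left hE (by positivity)
      have h5 : Y ^ (κ - 1) / c * (c * Y ^ (1 - κ) * (P.card : ℝ) ^ 4) = (P.card : ℝ) ^ 4 := by
        have : Y ^ (κ - 1) / c * (c * Y ^ (1 - κ) * (P.card : ℝ) ^ 4) =
            (Y ^ (κ - 1) * Y ^ (1 - κ)) * (P.card : ℝ) ^ 4 := by field_simp
        rw [this, hYs, one_mul]
      rw [h5] at h4
      refine h4.trans (le_of_eq (by ring))
    have h3 : P.card ^ 4 ≤ τ * (edgesD P C D).card := by exact_mod_cast h2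
    refine le_trans (le_of_eq (by ring)) h3
  · intro B
    rw [card_EzD, ← hY]
    have h2 : K ^ 2 * (t : ℝ) ^ (n + 1) ≤ (P.card : ℝ) ^ 2 := by
      have h3 : (K * (t : ℝ) ^ (((n + 1 : ℕ) : ℝ) / 2)) ^ 2 ≤ (P.card : ℝ) ^ 2 :=
        pow_le_pow_left₀ (by positivity) hKP 2
      have h4 : (K * (t : ℝ) ^ (((n + 1 : ℕ) : ℝ) / 2)) ^ 2 = K ^ 2 * (t : ℝ) ^ (n + 1) := by
        rw [mul_pow, ← Real.rpow_natCast ((t : ℝ) ^ (((n + 1 : ℕ) : ℝ) / 2)) 2,
          ← Real.rpow_mul (by linarith), ← Real.rpow_natCast (t : ℝ) (n + 1)]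
        congr 2
        push_cast
        ring
      rw [h4] at h3
      exact h3
    have h5 : (t : ℝ) * (c * (Y ^ (1 - κ) * K ^ 2 * (P.card : ℝ) ^ 2 * (t : ℝ) ^ n)) ≤
        t * (edgesD P C D).card := by
      refine le_trans ?_ hE
      calc (t : ℝ) * (c * (Y ^ (1 - κ) * K ^ 2 * (P.card : ℝ) ^ 2 * (t : ℝ) ^ n)) =
            c * Y ^ (1 - κ) * (P.card : ℝ) ^ 2 * (K ^ 2 * (t : ℝ) ^ (n + 1)) := by ring
        _ ≤ c * Y ^ (1 - κ) * (P.card : ℝ) ^ 2 * (P.card : ℝ) ^ 2 :=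
            mul_le_mul_of_nonneg_left h2 (by positivity)
        _ = _ := by ring
    exact le_of_mul_le_mul_left h5 (by linarith)
  · intro δ hδ
    rw [← hY]
    exact hmu δ hδ
  · intro B δ hδ
    rw [card_EzD, ← hY]
    exact hmE δ hδ

end Vale.Agent.P054.T3.H190
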